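import Vale.Agent.P028.NF.Defs

/-! # P028 near-full: reduced pairs with a hit are sparse -/

open Finset

namespace Vale.P028NF

theorem sum_inv_le (N : ℕ) :
    ∑ k ∈ Finset.Icc 1 N, (1:ℝ) / k ≤ 1 + Real.log N := by
  have h := harmonic_le_one_add_log N
  rw [harmonic_eq_sum_Icc, Rat.cast_sum] at h
  simpa using h

/-- sparse sets of integers have a small reciprocal sum -/
theorem sparse_sum {L X : ℝ} (hL : 0 ≤ L) (hX : 1 ≤ X) (s : Finset ℕ)
    (hge : ∀ x ∈ s, X ≤ (x:ℝ) ∧ (x:ℝ) ≤ Real.exp L)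
    (hsep : ∀ x ∈ s, ∀ y ∈ s, x < y → X ≤ (y:ℝ) - x) :
    ∑ x ∈ s, (1:ℝ) / x ≤ (1 + L) / X := by
  classical
  have hX0 : 0 < X := by linarith
  set k : ℕ → ℕ := fun x => ⌊(x:ℝ) / X⌋₊ with hk
  have hk1 : ∀ x ∈ s, 1 ≤ k x ∧ k x ≤ ⌊Real.exp L⌋₊ := by
    intro x hx
    obtain ⟨h1, h2⟩ := hge x hx
    refine ⟨Nat.le_floor (by rw [Nat.cast_one, one_le_div hX0]; exact h1), ?_⟩
    exact Nat.floor_le_floor ((div_le_self (by positivity) hX).trans h2)
  have hlt : ∀ x ∈ s, ∀ y ∈ s, x < y → k x < k y := by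
    intro x hx y hy hxy
    have h1 : (x:ℝ) / X + 1 ≤ (y:ℝ) / X := by
      rw [div_add_one hX0.ne', div_le_div_iff_of_pos_right hX0]
      linarith [hsep x hx y hy hxy]
    calc k x < k x + 1 := Nat.lt_succ_self _
      _ = ⌊(x:ℝ) / X + 1⌋₊ := (Nat.floor_add_one (by positivity)).symm
      _ ≤ k y := Nat.floor_le_floor h1
  have hinj : Set.InjOn k (s : Set ℕ) := by
    intro x hx y hy h
    rcases lt_trichotomy x y with g | g | g
    · exact absurd h (hlt x hx y hy g).ne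
    · exact g
    · exact absurd h (hlt y hy x hx g).ne'
  calc ∑ x ∈ s, (1:ℝ) / x ≤ ∑ x ∈ s, (1 / X) * ((1:ℝ) / (k x : ℕ)) := by
        refine Finset.sum_le_sum fun x hx => ?_
        have h1 : (1:ℝ) ≤ (k x : ℕ) := by exact_mod_cast (hk1 x hx).1
        have h2 : ((k x : ℕ):ℝ) ≤ (x:ℝ) / X := Nat.floor_le (by positivity)
        rw [le_div_iff₀ hX0] at h2
        rw [div_mul_div_comm, one_mul]
        refine one_div_le_one_div_of_le (by positivity) ?_
        linarith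
    _ = (1 / X) * ∑ m ∈ s.image k, (1:ℝ) / m := by
        rw [Finset.sum_image hinj, Finset.mul_sum]
    _ ≤ (1 / X) * ∑ m ∈ Finset.Icc 1 ⌊Real.exp L⌋₊, (1:ℝ) / m := by
        refine mul_le_mul_of_nonneg_left ?_ (by positivity)
        refine Finset.sum_le_sum_of_subset_of_nonneg (fun m hm => ?_) (fun m _ _ => by positivity)
        obtain ⟨x, hx, rfl⟩ := Finset.mem_image.mp hm
        exact Finset.mem_Icc.mpr (hk1 x hx)
    _ ≤ (1 / X) * (1 + L) := by
        refine mul_le_mul_of_nonneg_left ((sum_inv_le _).trans ?_) (by positivity)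
        have h1 : (1:ℝ) ≤ ⌊Real.exp L⌋₊ := by
          exact_mod_cast Nat.le_floor (by simpa using Real.one_le_exp hL)
        have h2 := Real.log_le_log (by linarith) (Nat.floor_le (Real.exp_pos L).le)
        rw [Real.log_exp] at h2
        linarith
    _ = _ := by ring

/-- `∑_{n ≤ N} τ(n)^2 / n ≤ (∑ 1/k)^4` -/
theorem tau_sq_sum_le (N : ℕ) :
    ∑ n ∈ Finset.Icc 1 N, (n.divisors.card : ℝ) ^ 2 / n
      ≤ (∑ k ∈ Finset.Icc 1 N, (1:ℝ) / k) ^ 4 := by
  classical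
  set I := Finset.Icc 1 N with hI
  set T := I.sigma (fun n => n.divisors ×ˢ n.divisors) with hT
  set F : (Σ _n : ℕ, ℕ × ℕ) → ℕ × ℕ × ℕ × ℕ := fun p =>
    (Nat.gcd p.2.1 p.2.2, p.2.1 / Nat.gcd p.2.1 p.2.2, p.2.2 / Nat.gcd p.2.1 p.2.2,
      p.1 / Nat.lcm p.2.1 p.2.2) with hF
  set W : ℕ × ℕ × ℕ × ℕ → ℝ := fun y => 1 / y.1 * (1 / y.2.1 * (1 / y.2.2.1 * (1 / y.2.2.2)))
    with hW
  have key : ∀ p ∈ T, 1 ≤ p.1 ∧ p.1 ≤ N ∧ (F p).1 * (F p).2.1 = p.2.1 ∧
      (F p).1 * (F p).2.2.1 = p.2.2 ∧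
      (F p).1 * (F p).2.1 * (F p).2.2.1 * (F p).2.2.2 = p.1 := by
    rintro ⟨n, d, e⟩ hp
    simp only [hT, hI, Finset.mem_sigma, Finset.mem_product, Nat.mem_divisors,
      Finset.mem_Icc] at hp
    obtain ⟨⟨h1, h2⟩, ⟨hd, -⟩, ⟨he, -⟩⟩ := hp
    have hd0 : 0 < d := Nat.pos_of_dvd_of_pos hd h1
    have hg : 0 < Nat.gcd d e := Nat.gcd_pos_of_pos_left _ hd0
    have a1 : Nat.gcd d e * (d / Nat.gcd d e) = d := Nat.mul_div_cancel' (Nat.gcd_dvd_left _ _)
    have a2 : Nat.gcd d e * (e / Nat.gcd d e) = e := Nat.mul_div_cancel' (Nat.gcd_dvd_right _ _)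
    refine ⟨h1, h2, a1, a2, ?_⟩
    show Nat.gcd d e * (d / Nat.gcd d e) * (e / Nat.gcd d e) * (n / Nat.lcm d e) = n
    have a3 : Nat.gcd d e * (d / Nat.gcd d e) * (e / Nat.gcd d e) = Nat.lcm d e := by
      rw [a1, Nat.lcm, Nat.mul_div_assoc _ (Nat.gcd_dvd_right _ _)]
    rw [a3, Nat.mul_div_cancel' (Nat.lcm_dvd hd he)]
  have hinj : Set.InjOn F (T : Set (Σ _n : ℕ, ℕ × ℕ)) := by
    rintro ⟨n, d, e⟩ hp ⟨n', d', e'⟩ hp' h
    obtain ⟨-, -, b1, b2, b3⟩ := key _ hp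
    obtain ⟨-, -, c1, c2, c3⟩ := key _ hp'
    rw [h] at b1 b2 b3
    have g1 : d = d' := b1.symm.trans c1
    have g2 : e = e' := b2.symm.trans c2
    have g3 : n = n' := b3.symm.trans c3
    subst g1; subst g2; subst g3; rfl
  have hmem : ∀ p ∈ T, F p ∈ I ×ˢ (I ×ˢ (I ×ˢ I)) := by
    intro p hp
    obtain ⟨h1, h2, -, -, h5⟩ := key p hp
    have hb : ∀ m, m ∣ p.1 → m ∈ I := fun m hm => Finset.mem_Icc.mpr
      ⟨Nat.pos_of_dvd_of_pos hm h1, (Nat.le_of_dvd h1 hm).trans h2⟩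
    simp only [Finset.mem_product]
    refine ⟨hb _ ?_, hb _ ?_, hb _ ?_, hb _ ?_⟩ <;> rw [← h5]
    · exact Dvd.dvd.mul_right (Dvd.dvd.mul_right (dvd_mul_right _ _) _) _
    · exact Dvd.dvd.mul_right (Dvd.dvd.mul_right (dvd_mul_left _ _) _) _
    · exact Dvd.dvd.mul_right (dvd_mul_left _ _) _
    · exact dvd_mul_left _ _
  calc ∑ n ∈ I, (n.divisors.card : ℝ) ^ 2 / n = ∑ p ∈ T, (1:ℝ) / p.1 := by
        rw [hT, Finset.sum_sigma]
        refine Finset.sum_congr rfl fun n _ => ?_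
        dsimp only
        rw [Finset.sum_const, Finset.card_product, nsmul_eq_mul]
        push_cast; ring
    _ = ∑ p ∈ T, W (F p) := by
        refine Finset.sum_congr rfl fun p hp => ?_
        obtain ⟨-, -, -, -, h5⟩ := key p hp
        simp only [hW]
        rw [one_div_mul_one_div, one_div_mul_one_div, one_div_mul_one_div]
        congr 1
        conv_lhs => rw [← h5]
        push_cast; ring
    _ = ∑ y ∈ T.image F, W y := (Finset.sum_image hinj).symm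
    _ ≤ ∑ y ∈ I ×ˢ (I ×ˢ (I ×ˢ I)), W y := by
        refine Finset.sum_le_sum_of_subset_of_nonneg (fun y hy => ?_)
          (fun y _ _ => by simp only [hW]; positivity)
        obtain ⟨p, hp, rfl⟩ := Finset.mem_image.mp hy
        exact hmem p hp
    _ = _ := by
        simp only [hW, Finset.sum_product]
        simp only [← Finset.mul_sum, ← Finset.sum_mul]
        ring

theorem tau_sq_le {L : ℝ} (hL : 0 ≤ L) :
    ∑ n ∈ Finset.Icc 1 ⌊Real.exp L⌋₊, (n.divisors.card : ℝ) ^ 2 / n ≤ (1 + L) ^ 4 := by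
  refine (tau_sq_sum_le _).trans (pow_le_pow_left₀ ?_ ((sum_inv_le _).trans ?_) 4)
  · exact Finset.sum_nonneg fun k _ => by positivity
  have h1 : (1:ℝ) ≤ ⌊Real.exp L⌋₊ := by
    exact_mod_cast Nat.le_floor (by simpa using Real.one_le_exp hL)
  have h2 := Real.log_le_log (by linarith) (Nat.floor_le (Real.exp_pos L).le)
  rw [Real.log_exp] at h2
  linarith

/-- one side: the second coordinate is the larger one -/
theorem side_le {L X : ℝ} (hL : 0 ≤ L) (hX : 1 ≤ X) (R : Finset (ℕ × ℕ))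
    (hR : ∀ x ∈ R, 1 ≤ x.1 ∧ (x.1:ℝ) ≤ Real.exp L ∧ X ≤ (x.2:ℝ) ∧ (x.2:ℝ) ≤ Real.exp L)
    (hsep : ∀ x ∈ R, ∀ y ∈ R, x.1 = y.1 → x.2 < y.2 → X ≤ (y.2:ℝ) - x.2) :
    ∑ x ∈ R, (1:ℝ) / ((x.1:ℝ) * x.2) ≤ (1 + L) * ((1 + L) / X) := by
  classical
  set I := Finset.Icc 1 ⌊Real.exp L⌋₊ with hI
  rw [← Finset.sum_fiberwise_of_maps_to (g := Prod.fst) (t := I)
    (fun x hx => Finset.mem_Icc.mpr ⟨(hR x hx).1, Nat.le_floor (hR x hx).2.1⟩)]
  calc ∑ a ∈ I, ∑ x ∈ R.filter (fun x => x.1 = a), (1:ℝ) / ((x.1:ℝ) * x.2)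
      ≤ ∑ a ∈ I, (1:ℝ) / a * ((1 + L) / X) := by
        refine Finset.sum_le_sum fun a _ => ?_
        set Ra := R.filter (fun x => x.1 = a) with hRa
        have hinj : Set.InjOn Prod.snd (Ra : Set (ℕ × ℕ)) := fun x hx y hy h =>
          Prod.ext ((Finset.mem_filter.mp hx).2.trans (Finset.mem_filter.mp hy).2.symm) h
        calc ∑ x ∈ Ra, (1:ℝ) / ((x.1:ℝ) * x.2) = ∑ x ∈ Ra, (1:ℝ) / a * (1 / (x.2:ℝ)) := by
              refine Finset.sum_congr rfl fun x hx => ?_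
              rw [(Finset.mem_filter.mp hx).2, one_div_mul_one_div]
          _ = (1:ℝ) / a * ∑ b ∈ Ra.image Prod.snd, (1:ℝ) / b := by
              rw [Finset.sum_image hinj, Finset.mul_sum]
          _ ≤ _ := by
              refine mul_le_mul_of_nonneg_left (sparse_sum hL hX _ ?_ ?_) (by positivity)
              · intro b hb
                obtain ⟨x, hx, rfl⟩ := Finset.mem_image.mp hb
                exact (hR x (Finset.mem_filter.mp hx).1).2.2
              · intro b hb b' hb' hlt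
                obtain ⟨x, hx, rfl⟩ := Finset.mem_image.mp hb
                obtain ⟨y, hy, rfl⟩ := Finset.mem_image.mp hb'
                exact hsep x (Finset.mem_filter.mp hx).1 y (Finset.mem_filter.mp hy).1
                  ((Finset.mem_filter.mp hx).2.trans (Finset.mem_filter.mp hy).2.symm) hlt
    _ = (∑ a ∈ I, (1:ℝ) / a) * ((1 + L) / X) := (Finset.sum_mul _ _ _).symm
    _ ≤ _ := by
        refine mul_le_mul_of_nonneg_right ((sum_inv_le _).trans ?_) (by positivity)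
        have h1 : (1:ℝ) ≤ ⌊Real.exp L⌋₊ := by
          exact_mod_cast Nat.le_floor (by simpa using Real.one_le_exp hL)
        have h2 := Real.log_le_log (by linarith) (Nat.floor_le (Real.exp_pos L).le)
        rw [Real.log_exp] at h2
        linarith

/-- Module `Hits`. -/
theorem hits : HitsStmt := by
  classical
  intro γ w c hd
  obtain ⟨hw, hc, hdio⟩ := hd
  set e : ℝ := 1 / (w:ℝ) with he
  refine ⟨2 * (4 / c) ^ (1 / (2 * (w:ℝ))), by positivity, ?_⟩
  intro L t hL ht _ R hR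
  set X0 : ℝ := (c / (4 * t)) ^ e with hX0
  set X := max X0 1 with hX
  have hX1 : 1 ≤ X := le_max_right _ _
  have hXpos : 0 < X := by linarith
  have hwR : (0:ℝ) < w := by exact_mod_cast hw
  -- the separation
  have hgap : ∀ (h : ℕ) (j : ℤ), 1 ≤ h → |(h:ℝ) * γ + j| < 4 * t → X ≤ (h:ℝ) := by
    intro h j h1 hj
    refine max_le ?_ (by exact_mod_cast h1)
    have hhR : (0:ℝ) ≤ h := Nat.cast_nonneg h
    have h2 : c / (4 * t) ≤ (h:ℝ) ^ w := by
      rw [div_le_iff₀ (by positivity)]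
      exact (hdio h h1 j).trans (mul_le_mul_of_nonneg_left hj.le (by positivity))
    calc X0 ≤ ((h:ℝ) ^ w) ^ e := Real.rpow_le_rpow (by positivity) h2 (by positivity)
      _ = (h:ℝ) := by rw [he, one_div]; exact Real.pow_rpow_inv_natCast hhR (by omega)
  have hsepgen : ∀ (a b : ℕ) (j : ℤ), a < b →
      |(j:ℝ) + γ * ((b:ℝ) - a)| < 4 * t → X ≤ (b:ℝ) - a := by
    intro a b j hab hj
    rw [← Nat.cast_sub hab.le] at hj ⊢
    refine hgap (b - a) j (by omega) ?_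
    rwa [mul_comm, add_comm]
  have hpart : ∀ x ∈ R, (x.1 < x.2 → X ≤ (x.2:ℝ)) ∧ (x.2 < x.1 → X ≤ (x.1:ℝ)) := by
    intro x hx
    obtain ⟨-, -, -, -, -, j, hj⟩ := hR x hx
    constructor
    · intro h
      have h1 := hsepgen x.1 x.2 j h (by linarith)
      have : (0:ℝ) ≤ x.1 := Nat.cast_nonneg _
      linarith
    · intro h
      have h1 := hsepgen x.2 x.1 (-j) h (by
        rw [← abs_neg]
        refine lt_of_eq_of_lt ?_ (hj.trans (by linarith))
        congr 1; push_cast; ring)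
      have : (0:ℝ) ≤ x.2 := Nat.cast_nonneg _
      linarith
  have hA : ∑ x ∈ R, (1:ℝ) / ((x.1:ℝ) * x.2) ≤ 2 * ((1 + L) * ((1 + L) / X)) := by
    rw [← Finset.sum_filter_add_sum_filter_not R (fun x => x.1 < x.2)]
    have s1 : ∑ x ∈ R.filter (fun x => x.1 < x.2), (1:ℝ) / ((x.1:ℝ) * x.2)
        ≤ (1 + L) * ((1 + L) / X) := by
      refine side_le hL hX1 _ (fun x hx => ?_) (fun x hx y hy hxy hlt => ?_)
      · obtain ⟨h1, h2⟩ := Finset.mem_filter.mp hx
        obtain ⟨a1, -, -, a4, a5, -⟩ := hR x h1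
        exact ⟨a1, a4, (hpart x h1).1 h2, a5⟩
      · obtain ⟨-, -, -, -, -, j, hj⟩ := hR x (Finset.mem_filter.mp hx).1
        obtain ⟨-, -, -, -, -, k, hk⟩ := hR y (Finset.mem_filter.mp hy).1
        refine hsepgen x.2 y.2 (k - j) hlt ?_
        rw [hxy] at hj
        have := abs_lt.mp hj
        have := abs_lt.mp hk
        rw [abs_lt]; push_cast; constructor <;> linarith
    have s2 : ∑ x ∈ R.filter (fun x => ¬ x.1 < x.2), (1:ℝ) / ((x.1:ℝ) * x.2)
        ≤ (1 + L) * ((1 + L) / X) := by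
      have e1 : ∑ x ∈ (R.filter (fun x => ¬ x.1 < x.2)).image Prod.swap, (1:ℝ) / ((x.1:ℝ) * x.2)
          = ∑ x ∈ R.filter (fun x => ¬ x.1 < x.2), (1:ℝ) / ((x.1:ℝ) * x.2) := by
        rw [Finset.sum_image (Prod.swap_injective.injOn)]
        exact Finset.sum_congr rfl fun x _ => by simp [mul_comm]
      rw [← e1]
      refine side_le hL hX1 _ (fun z hz => ?_) (fun z hz z' hz' hzz hlt => ?_)
      · obtain ⟨x, hx, rfl⟩ := Finset.mem_image.mp hz
        obtain ⟨h1, h2⟩ := Finset.mem_filter.mp hx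
        obtain ⟨-, a2, a3, a4, a5, -⟩ := hR x h1
        exact ⟨a2, a5, (hpart x h1).2 (lt_of_le_of_ne (not_lt.mp h2) (Ne.symm a3)), a4⟩
      · obtain ⟨x, hx, rfl⟩ := Finset.mem_image.mp hz
        obtain ⟨y, hy, rfl⟩ := Finset.mem_image.mp hz'
        obtain ⟨-, -, -, -, -, j, hj⟩ := hR x (Finset.mem_filter.mp hx).1
        obtain ⟨-, -, -, -, -, k, hk⟩ := hR y (Finset.mem_filter.mp hy).1
        simp only [Prod.fst_swap, Prod.snd_swap] at hzz hlt ⊢
        refine hsepgen x.1 y.1 (j - k) hlt ?_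
        rw [hzz] at hj
        have := abs_lt.mp hj
        have := abs_lt.mp hk
        rw [abs_lt]; push_cast; constructor <;> linarith
    linarith
  -- Cauchy
  set N := ⌊Real.exp L⌋₊ with hN
  set g : ℕ → ℝ := fun n => (n.divisors.card : ℝ) ^ 2 / n with hg
  have hB : ∑ x ∈ R, g x.1 * g x.2 ≤ ((1 + L) ^ 4) ^ 2 := by
    calc ∑ x ∈ R, g x.1 * g x.2 ≤ ∑ x ∈ Finset.Icc 1 N ×ˢ Finset.Icc 1 N, g x.1 * g x.2 := by
          refine Finset.sum_le_sum_of_subset_of_nonneg (fun x hx => ?_)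
            (fun x _ _ => by simp only [hg]; positivity)
          obtain ⟨a1, a2, -, a4, a5, -⟩ := hR x hx
          simp only [Finset.mem_product, Finset.mem_Icc]
          exact ⟨⟨a1, Nat.le_floor a4⟩, a2, Nat.le_floor a5⟩
      _ = (∑ n ∈ Finset.Icc 1 N, g n) ^ 2 := by
          rw [sq, Finset.sum_mul_sum, Finset.sum_product]
      _ ≤ _ := pow_le_pow_left₀ (Finset.sum_nonneg fun n _ => by positivity)
          (tau_sq_le hL) 2
  have hcs : (∑ x ∈ R, tauW x) ^ 2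
      ≤ (∑ x ∈ R, (1:ℝ) / ((x.1:ℝ) * x.2)) * ∑ x ∈ R, g x.1 * g x.2 := by
    refine Finset.sum_sq_le_sum_mul_sum_of_sq_le_mul R (fun x _ => by positivity)
      (fun x _ => by simp only [hg]; positivity) (fun x _ => le_of_eq ?_)
    simp only [tauW, hg]; ring
  have hXi : 1 / X ≤ ((4 / c) ^ (1 / (2 * (w:ℝ))) * t ^ (1 / (2 * (w:ℝ)))) ^ 2 := by
    rw [← Real.mul_rpow (by positivity) ht.le, ← Real.rpow_natCast _ 2,
      ← Real.rpow_mul (by positivity)]
    have e2 : 1 / (2 * (w:ℝ)) * ((2:ℕ):ℝ) = e := by rw [he]; push_cast; field_simp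
    rw [e2]
    calc 1 / X ≤ 1 / X0 := one_div_le_one_div_of_le (by positivity) (le_max_left _ _)
      _ = _ := by
          rw [hX0, one_div, ← Real.inv_rpow (by positivity), inv_div]
          congr 1; ring
  have hfin : (∑ x ∈ R, tauW x) ^ 2 ≤
      (2 * (4 / c) ^ (1 / (2 * (w:ℝ))) * (1 + L) ^ 5 * t ^ (1 / (2 * (w:ℝ)))) ^ 2 := by
    set Z := (4 / c) ^ (1 / (2 * (w:ℝ))) * t ^ (1 / (2 * (w:ℝ))) with hZ
    calc (∑ x ∈ R, tauW x) ^ 2
        ≤ (2 * ((1 + L) * ((1 + L) / X))) * ((1 + L) ^ 4) ^ 2 :=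
          hcs.trans (mul_le_mul hA hB
            (Finset.sum_nonneg fun x _ => by simp only [hg]; positivity) (by positivity))
      _ = 2 * (1 + L) ^ 10 * (1 / X) := by ring
      _ ≤ 2 * (1 + L) ^ 10 * Z ^ 2 := mul_le_mul_of_nonneg_left hXi (by positivity)
      _ ≤ 4 * (1 + L) ^ 10 * Z ^ 2 := by
          have : 0 ≤ (1 + L) ^ 10 * Z ^ 2 := by positivity
          linarith
      _ = _ := by rw [hZ]; ring
  exact le_of_pow_le_pow_left₀ two_ne_zero (by positivity) hfin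

end Vale.P028NF
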