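import Vale.Agent.P028.NF.Gcd

/-! # P028 near-full: the second moment bound from the three modules -/

open Finset MeasureTheory

namespace Vale.P028NF

/-- dyadic exponent of a positive real -/
noncomputable def flg (x : ℝ) : ℤ := ⌊Real.logb 2 x⌋

theorem flg_spec {x : ℝ} (hx : 0 < x) :
    (2:ℝ) ^ (flg x : ℝ) ≤ x ∧ x < (2:ℝ) ^ ((flg x : ℝ) + 1) :=
  ⟨(Real.le_logb_iff_rpow_le one_lt_two hx).mp (Int.floor_le _),
    (Real.logb_lt_iff_lt_rpow one_lt_two hx).mp (Int.lt_floor_add_one _)⟩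

theorem red_mul_gcd (q r : ℕ) :
    ((red (q, r)).1 : ℝ) * Nat.gcd q r = q ∧ ((red (q, r)).2 : ℝ) * Nat.gcd q r = r := by
  constructor
  · exact_mod_cast Nat.div_mul_cancel (Nat.gcd_dvd_left q r)
  · exact_mod_cast Nat.div_mul_cancel (Nat.gcd_dvd_right q r)

theorem red_pos {q r : ℕ} (hq : 0 < q) (hr : 0 < r) :
    0 < (red (q, r)).1 ∧ 0 < (red (q, r)).2 :=
  ⟨Nat.div_pos (Nat.le_of_dvd hq (Nat.gcd_dvd_left q r)) (Nat.gcd_pos_of_pos_left r hq),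
    Nat.div_pos (Nat.le_of_dvd hr (Nat.gcd_dvd_right q r)) (Nat.gcd_pos_of_pos_left r hq)⟩

theorem DD_eq {ψ : ℕ → ℝ} {q r : ℕ} (hq : 0 < q) (hr : 0 < r) :
    DD ψ q r = (Nat.lcm q r : ℝ) * max (ψ q / q) (ψ r / r) := by
  obtain ⟨e1, e2⟩ := red_mul_gcd q r
  have hqR : (0:ℝ) < q := by exact_mod_cast hq
  have hrR : (0:ℝ) < r := by exact_mod_cast hr
  have hg : (Nat.gcd q r : ℝ) ≠ 0 := by exact_mod_cast (Nat.gcd_pos_of_pos_left r hq).ne'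
  have hl : (Nat.gcd q r : ℝ) * (Nat.lcm q r : ℝ) = (q:ℝ) * r := by
    exact_mod_cast Nat.gcd_mul_lcm q r
  have k1 : ((red (q, r)).2 : ℝ) * q = (Nat.lcm q r : ℝ) :=
    mul_left_cancel₀ hg (by rw [hl, ← mul_assoc, mul_comm (Nat.gcd q r : ℝ), e2]; ring)
  have k2 : ((red (q, r)).1 : ℝ) * r = (Nat.lcm q r : ℝ) :=
    mul_left_cancel₀ hg (by rw [hl, ← mul_assoc, mul_comm (Nat.gcd q r : ℝ), e1])
  rw [mul_max_of_nonneg _ _ (Nat.cast_nonneg _), DD]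
  congr 1
  · rw [← k1]; field_simp
  · rw [← k2]; field_simp

theorem DD_pos {ψ : ℕ → ℝ} {q r : ℕ} (hq : 0 < q) (hr : 0 < r) (h : 0 < ψ q) :
    0 < DD ψ q r := by
  have : (0:ℝ) < (red (q, r)).2 := by exact_mod_cast (red_pos hq hr).2
  exact lt_of_lt_of_le (mul_pos this h) (le_max_left _ _)

theorem DD_self {ψ : ℕ → ℝ} {q : ℕ} (hq : 0 < q) : DD ψ q q = ψ q := by
  simp [DD, red, Nat.div_self hq]

theorem wt_bounds {ε : ℝ} (hε : 0 < ε) {L : ℕ → ℝ} {q : ℕ} (hq : 0 < q) (hL : 0 ≤ L q) :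
    0 ≤ wt ε L q ∧ wt ε L q ≤ 1 := by
  have hqR : (0:ℝ) < q := by exact_mod_cast hq
  have h1 : (Nat.totient q : ℝ) / q ≤ 1 := by
    rw [div_le_one hqR]; exact_mod_cast Nat.totient_le q
  have h2 : (1 + L q) ^ (-ε) ≤ 1 := Real.rpow_le_one_of_one_le_of_nonpos (by linarith) (by linarith)
  have h3 : 0 ≤ (1 + L q) ^ (-ε) := Real.rpow_nonneg (by linarith) _
  exact ⟨mul_nonneg (by positivity) h3, mul_le_one₀ h1 h3 h2⟩

/-- the class of `q` -/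
noncomputable def key (ψ L : ℕ → ℝ) (q : ℕ) : ℤ × ℕ := (flg (ψ q / q), ⌊Real.logb 2 (1 + L q)⌋₊)

theorem key_weight {ε : ℝ} (hε : 0 < ε) {ψ L : ℕ → ℝ} {q : ℕ} (hq : 0 < q) (hψ : 0 < ψ q)
    (hL : 0 ≤ L q) :
    wt ε L q * ψ q ≤
      (2:ℝ) ^ (((key ψ L q).1 : ℝ) + 1 - ε * (key ψ L q).2) * (Nat.totient q : ℝ) ∧
    1 + L q ≤ (2:ℝ) ^ (((key ψ L q).2 : ℝ) + 1) := by
  have hqR : (0:ℝ) < q := by exact_mod_cast hq
  have h1 := (flg_spec (div_pos hψ hqR)).2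
  have hl0 : 0 ≤ Real.logb 2 (1 + L q) := Real.logb_nonneg one_lt_two (by linarith)
  have h2 : (2:ℝ) ^ ((key ψ L q).2 : ℝ) ≤ 1 + L q :=
    (Real.le_logb_iff_rpow_le one_lt_two (by linarith)).mp (Nat.floor_le hl0)
  refine ⟨?_, ((Real.logb_lt_iff_lt_rpow one_lt_two (by linarith)).mp (Nat.lt_floor_add_one _)).le⟩
  have h3 : (1 + L q) ^ (-ε) ≤ (2:ℝ) ^ (-ε * ((key ψ L q).2 : ℝ)) := by
    rw [mul_comm, Real.rpow_mul (by norm_num)]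
    exact Real.rpow_le_rpow_of_nonpos (Real.rpow_pos_of_pos (by norm_num) _) h2 (by linarith)
  calc wt ε L q * ψ q = (ψ q / q) * (1 + L q) ^ (-ε) * (Nat.totient q : ℝ) := by
        unfold wt; field_simp
    _ ≤ (2:ℝ) ^ (((key ψ L q).1 : ℝ) + 1) * (2:ℝ) ^ (-ε * ((key ψ L q).2 : ℝ)) *
          (Nat.totient q : ℝ) := by
        refine mul_le_mul_of_nonneg_right ?_ (Nat.cast_nonneg _)
        exact mul_le_mul h1.le h3 (Real.rpow_nonneg (by linarith) _)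
          (Real.rpow_nonneg (by norm_num) _)
    _ = _ := by
        rw [← Real.rpow_add (by norm_num)]; congr 2; ring

theorem two_rpow_pow (x : ℝ) (n : ℕ) : ((2:ℝ) ^ x) ^ n = (2:ℝ) ^ (x * n) :=
  (Real.rpow_mul_natCast (by norm_num) x n).symm

/-- kernel sum over classes -/
theorem kernel_row {θ δ : ℝ} (hθ : 0 < θ) (hδ : 0 < δ) (Ks : Finset (ℤ × ℕ)) (a : ℤ) :
    ∑ K ∈ Ks, (2:ℝ) ^ (-θ * |(a:ℝ) - K.1| - δ * K.2) ≤
      (1 + 2 * (2:ℝ) ^ (-θ) / (1 - (2:ℝ) ^ (-θ))) * (1 - (2:ℝ) ^ (-δ))⁻¹ := by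
  have hr : (2:ℝ) ^ (-θ) < 1 := Real.rpow_lt_one_of_one_lt_of_neg (by norm_num) (by linarith)
  have hr' : (2:ℝ) ^ (-δ) < 1 := Real.rpow_lt_one_of_one_lt_of_neg (by norm_num) (by linarith)
  have hr0 : (0:ℝ) ≤ (2:ℝ) ^ (-θ) := Real.rpow_nonneg (by norm_num) _
  have hr0' : (0:ℝ) ≤ (2:ℝ) ^ (-δ) := Real.rpow_nonneg (by norm_num) _
  have e : ∀ K : ℤ × ℕ, (2:ℝ) ^ (-θ * |(a:ℝ) - K.1| - δ * K.2) =
      ((2:ℝ) ^ (-θ)) ^ (a - K.1).natAbs * ((2:ℝ) ^ (-δ)) ^ K.2 := fun K => by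
    rw [two_rpow_pow, two_rpow_pow, ← Real.rpow_add (by norm_num), Nat.cast_natAbs, Int.cast_abs,
      Int.cast_sub]
    congr 1; ring
  rw [sum_congr rfl (fun K _ => e K)]
  have hsub : Ks ⊆ Ks.image Prod.fst ×ˢ Ks.image Prod.snd := fun K hK =>
    mem_product.mpr ⟨mem_image_of_mem _ hK, mem_image_of_mem _ hK⟩
  refine (sum_le_sum_of_subset_of_nonneg hsub fun K _ _ => by positivity).trans ?_
  rw [sum_product' (f := fun (x : ℤ) (y : ℕ) =>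
    ((2:ℝ) ^ (-θ)) ^ (a - x).natAbs * ((2:ℝ) ^ (-δ)) ^ y), ← sum_mul_sum]
  refine mul_le_mul ?_ ?_ (sum_nonneg fun _ _ => pow_nonneg hr0' _)
    (add_nonneg zero_le_one (div_nonneg (mul_nonneg (by norm_num) hr0) (by linarith)))
  · refine le_trans (le_of_eq ?_) (geom_int hr0 hr ((Ks.image Prod.fst).image (fun x => a - x))).1
    exact (sum_image (s := Ks.image Prod.fst) (g := fun x => a - x)
      (f := fun l : ℤ => ((2:ℝ) ^ (-θ)) ^ l.natAbs) (fun x _ y _ h => by simpa using h)).symm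
  · rw [← tsum_geometric_of_lt_one hr0' hr']
    exact (summable_geometric_of_lt_one hr0' hr').sum_le_tsum _ (fun n _ => pow_nonneg hr0' n)

/-- the quadratic form in the class masses -/
theorem kernel_form {θ δ η : ℝ} (hθ : 0 < θ) (hδ : 0 < δ) (hη : 0 < η) (hη' : η ≤ 1/4)
    (Ks : Finset (ℤ × ℕ)) (m : ℤ × ℕ → ℝ) (hm : ∀ K, 0 ≤ m K) :
    ∑ K ∈ Ks, ∑ J ∈ Ks, (2:ℝ) ^ (-θ * |(K.1:ℝ) - J.1| - δ * ((K.2:ℝ) + J.2)) *
        (m K * m J) ^ (1/2 + η) ≤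
      (1 + 2 * (2:ℝ) ^ (-θ) / (1 - (2:ℝ) ^ (-θ))) * (1 - (2:ℝ) ^ (-δ))⁻¹ *
        (1 + ∑ K ∈ Ks, m K) ^ 2 := by
  set G := (1 + 2 * (2:ℝ) ^ (-θ) / (1 - (2:ℝ) ^ (-θ))) * (1 - (2:ℝ) ^ (-δ))⁻¹ with hG
  set s := 1/2 + η with hs
  set u : ℤ × ℕ → ℝ := fun K => m K ^ (2 * s) with hu
  set w : (ℤ × ℕ) → (ℤ × ℕ) → ℝ :=
    fun K J => (2:ℝ) ^ (-θ * |(K.1:ℝ) - J.1| - δ * ((K.2:ℝ) + J.2)) with hw
  have hw0 : ∀ K J, 0 ≤ w K J := fun K J => Real.rpow_nonneg (by norm_num) _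
  have hws : ∀ K J, w K J = w J K := fun K J => by
    simp only [hw]; rw [abs_sub_comm (K.1:ℝ), add_comm (K.2:ℝ)]
  have hrow : ∀ K, ∑ J ∈ Ks, w K J ≤ G := fun K => by
    refine le_trans (sum_le_sum fun J _ => ?_) (kernel_row hθ hδ Ks K.1)
    refine Real.rpow_le_rpow_of_exponent_le (by norm_num) ?_
    have : 0 ≤ δ * (K.2:ℝ) := mul_nonneg hδ.le (Nat.cast_nonneg _)
    linarith
  have hu0 : ∀ K, 0 ≤ u K := fun K => Real.rpow_nonneg (hm K) _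
  have h1 : ∀ K J, (m K * m J) ^ s ≤ (u K + u J) / 2 := fun K J => by
    have eu : ∀ K, u K = (m K ^ s) ^ 2 := fun K => by
      rw [hu, ← Real.rpow_natCast, ← Real.rpow_mul (hm K)]
      push_cast; ring_nf
    rw [eu, eu, Real.mul_rpow (hm K) (hm J)]
    nlinarith [sq_nonneg (m K ^ s - m J ^ s)]
  have h2 : ∑ K ∈ Ks, ∑ J ∈ Ks, w K J * ((u K + u J) / 2) = ∑ K ∈ Ks, u K * ∑ J ∈ Ks, w K J := by
    have a : ∑ K ∈ Ks, ∑ J ∈ Ks, w K J * u J = ∑ K ∈ Ks, ∑ J ∈ Ks, w K J * u K := by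
      rw [sum_comm]
      exact sum_congr rfl fun K _ => sum_congr rfl fun J _ => by rw [hws]
    calc ∑ K ∈ Ks, ∑ J ∈ Ks, w K J * ((u K + u J) / 2)
        = (∑ K ∈ Ks, ∑ J ∈ Ks, w K J * u K + ∑ K ∈ Ks, ∑ J ∈ Ks, w K J * u J) / 2 := by
          simp only [← sum_add_distrib, sum_div]
          exact sum_congr rfl fun K _ => sum_congr rfl fun J _ => by ring
      _ = ∑ K ∈ Ks, ∑ J ∈ Ks, w K J * u K := by rw [a]; ring
      _ = _ := sum_congr rfl fun K _ => by rw [mul_sum]; exact sum_congr rfl fun J _ => mul_comm _ _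
  set M := ∑ K ∈ Ks, m K with hM
  have hM0 : 0 ≤ M := sum_nonneg fun K _ => hm K
  have hMu : ∑ K ∈ Ks, u K ≤ (1 + M) ^ 2 := by
    calc ∑ K ∈ Ks, u K ≤ ∑ K ∈ Ks, m K * (1 + M) := by
          refine sum_le_sum fun K hK => ?_
          simp only [hu]
          rw [show 2 * s = 1 + 2 * η by rw [hs]; ring, Real.rpow_add' (hm K) (by linarith),
            Real.rpow_one]
          refine mul_le_mul_of_nonneg_left ?_ (hm K)
          calc m K ^ (2 * η) ≤ (1 + M) ^ (2 * η) :=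
                Real.rpow_le_rpow (hm K) (by linarith [single_le_sum (fun i _ => hm i) hK]) (by linarith)
            _ ≤ 1 + M := Real.rpow_le_self_of_one_le (by linarith) (by linarith)
      _ = M * (1 + M) := by rw [← sum_mul]
      _ ≤ _ := by nlinarith
  have hG0 : 0 ≤ G := by
    rcases Ks.eq_empty_or_nonempty with h | ⟨K, -⟩
    · have := kernel_row hθ hδ (∅ : Finset (ℤ × ℕ)) 0
      simpa using this
    · exact (sum_nonneg fun J _ => hw0 K J).trans (hrow K)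
  calc ∑ K ∈ Ks, ∑ J ∈ Ks, w K J * (m K * m J) ^ s
      ≤ ∑ K ∈ Ks, ∑ J ∈ Ks, w K J * ((u K + u J) / 2) :=
        sum_le_sum fun K _ => sum_le_sum fun J _ => mul_le_mul_of_nonneg_left (h1 K J) (hw0 K J)
    _ = ∑ K ∈ Ks, u K * ∑ J ∈ Ks, w K J := h2
    _ ≤ ∑ K ∈ Ks, u K * G := sum_le_sum fun K _ => mul_le_mul_of_nonneg_left (hrow K) (hu0 K)
    _ = G * ∑ K ∈ Ks, u K := by rw [← sum_mul, mul_comm]
    _ ≤ G * (1 + M) ^ 2 := mul_le_mul_of_nonneg_left hMu hG0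

/-- one group: the two classes and the scale `n` are fixed -/
theorem group_le {η β ε C Ch γ : ℝ} {w : ℕ} (hη : 0 < η) (hη' : η ≤ 1/4) (hβ : 0 < β)
    (hβ' : β ≤ 1/2) (hε : 0 < ε) (hβε : 5 * β ≤ ε / 2) (hw : 1 ≤ w) (hC0 : 0 ≤ C) (hCh0 : 0 ≤ Ch)
    (hC : ∀ (V W : Finset ℕ) (E : Finset (ℕ × ℕ)) (μ ν : ℕ → ℝ) (ρ σ Λ : ℝ) (R : Finset (ℕ × ℕ)),
      0 ≤ ρ → 0 ≤ σ → 0 ≤ Λ → E ⊆ V ×ˢ W →
      (∀ v ∈ V, 0 ≤ μ v ∧ μ v ≤ ρ * (Nat.totient v : ℝ)) →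
      (∀ v ∈ W, 0 ≤ ν v ∧ ν v ≤ σ * (Nat.totient v : ℝ)) →
      (∀ e ∈ E, 0 < e.1 ∧ 0 < e.2 ∧ Λ ≤ (Nat.lcm e.1 e.2 : ℝ) ∧
        (Nat.lcm e.1 e.2 : ℝ) < 4 * Λ ∧ red e ∈ R) →
      ∑ e ∈ E, μ e.1 * ν e.2 ≤ C * (ρ * σ * Λ ^ 2) ^ (1/2 - η) *
        (∑ x ∈ R, tauW x) ^ (β * (1/2 - η)) *
        ((∑ v ∈ V, μ v) * (∑ v ∈ W, ν v)) ^ (1/2 + η))
    (hCh : ∀ (L t : ℝ), 0 ≤ L → 0 < t → t ≤ 1 → ∀ R : Finset (ℕ × ℕ),
      (∀ x ∈ R, 1 ≤ x.1 ∧ 1 ≤ x.2 ∧ x.1 ≠ x.2 ∧ (x.1 : ℝ) ≤ Real.exp L ∧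
        (x.2 : ℝ) ≤ Real.exp L ∧ ∃ j : ℤ, |(j : ℝ) + γ * ((x.2 : ℝ) - x.1)| < 2 * t) →
      ∑ x ∈ R, tauW x ≤ Ch * (1 + L) ^ 5 * t ^ (1 / (2 * (w : ℝ))))
    (ψ L : ℕ → ℝ) (S : Finset ℕ) (hS : ∀ q ∈ S, 0 < q ∧ 0 < ψ q ∧ ψ q ≤ 1/2 ∧ 0 ≤ L q)
    (K J : ℤ × ℕ) (n : ℤ) (hn : n ≤ -1) (E : Finset (ℕ × ℕ))
    (hE : ∀ e ∈ E, e.1 ∈ S ∧ e.2 ∈ S ∧ key ψ L e.1 = K ∧ key ψ L e.2 = J ∧
      flg (DD ψ e.1 e.2) = n ∧ e.1 ≠ e.2 ∧ HitD γ ψ e.1 e.2 ∧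
      ((red e).1 : ℝ) ≤ Real.exp (max (L e.1) (L e.2)) ∧
      ((red e).2 : ℝ) ≤ Real.exp (max (L e.1) (L e.2))) :
    ∑ e ∈ E, (wt ε L e.1 * ψ e.1) * (wt ε L e.2 * ψ e.2) / DD ψ e.1 e.2 ≤
      4 * C * Ch ^ (β * (1/2 - η)) *
        (2:ℝ) ^ ((β * (1/2 - η) / (2 * (w:ℝ)) - 2 * η) * n) *
        ((2:ℝ) ^ (-(1/2 - η) * |(K.1:ℝ) - J.1| - (1/2 - η) * ε / 2 * ((K.2:ℝ) + J.2)) *
          ((∑ q ∈ S.filter (fun q => key ψ L q = K), wt ε L q * ψ q) *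
            ∑ q ∈ S.filter (fun q => key ψ L q = J), wt ε L q * ψ q) ^ (1/2 + η)) := by
  classical
  set θ := 1/2 - η with hθ
  set b := β * θ with hb
  have hθ0 : 0 < θ := by rw [hθ]; linarith
  have hb0 : 0 < b := mul_pos hβ hθ0
  have hwR : (1:ℝ) ≤ w := by exact_mod_cast hw
  set A : ℝ := max (K.1:ℝ) J.1 with hA
  set mx : ℝ := max (K.2:ℝ) J.2 with hmx
  set ρ := (2:ℝ) ^ ((K.1:ℝ) + 1 - ε * K.2) with hρ
  set σ := (2:ℝ) ^ ((J.1:ℝ) + 1 - ε * J.2) with hσ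
  set Λ := (2:ℝ) ^ ((n:ℝ) - A - 1) with hΛ
  have hnR : (n:ℝ) ≤ -1 := by exact_mod_cast hn
  set Lb := (2:ℝ) ^ (mx + 1) - 1 with hLb
  have hmx0 : 0 ≤ mx := le_max_of_le_left (Nat.cast_nonneg _)
  have hLb0 : 0 ≤ Lb := by
    have := Real.one_le_rpow (show (1:ℝ) ≤ 2 by norm_num) (show 0 ≤ mx + 1 by linarith)
    linarith
  set t := (2:ℝ) ^ ((n:ℝ) + 1) with ht
  have ht0 : 0 < t := Real.rpow_pos_of_pos (by norm_num) _
  have ht1 : t ≤ 1 := Real.rpow_le_one_of_one_le_of_nonpos (by norm_num) (by linarith)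
  set V := S.filter (fun q => key ψ L q = K) with hV
  set W := S.filter (fun q => key ψ L q = J) with hW
  have hμ : ∀ v ∈ V, 0 ≤ wt ε L v * ψ v ∧ wt ε L v * ψ v ≤ ρ * (Nat.totient v : ℝ) := by
    intro v hv
    obtain ⟨hvS, hk⟩ := mem_filter.mp hv
    obtain ⟨h1, h2, -, h4⟩ := hS v hvS
    refine ⟨mul_nonneg (wt_bounds hε h1 h4).1 h2.le, ?_⟩
    have := (key_weight hε h1 h2 h4).1
    rwa [hk] at this
  have hν : ∀ v ∈ W, 0 ≤ wt ε L v * ψ v ∧ wt ε L v * ψ v ≤ σ * (Nat.totient v : ℝ) := by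
    intro v hv
    obtain ⟨hvS, hk⟩ := mem_filter.mp hv
    obtain ⟨h1, h2, -, h4⟩ := hS v hvS
    refine ⟨mul_nonneg (wt_bounds hε h1 h4).1 h2.le, ?_⟩
    have := (key_weight hε h1 h2 h4).1
    rwa [hk] at this
  have hsub : E ⊆ V ×ˢ W := fun e he => by
    obtain ⟨h1, h2, h3, h4, -⟩ := hE e he
    exact mem_product.mpr ⟨mem_filter.mpr ⟨h1, h3⟩, mem_filter.mpr ⟨h2, h4⟩⟩
  have hedge : ∀ e ∈ E, 0 < e.1 ∧ 0 < e.2 ∧ Λ ≤ (Nat.lcm e.1 e.2 : ℝ) ∧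
      (Nat.lcm e.1 e.2 : ℝ) < 4 * Λ ∧ red e ∈ E.image red := by
    intro e he
    obtain ⟨h1, h2, h3, h4, h5, -⟩ := hE e he
    obtain ⟨q0, qψ, -, -⟩ := hS _ h1
    obtain ⟨r0, rψ, -, -⟩ := hS _ h2
    refine ⟨q0, r0, ?_, ?_, mem_image_of_mem _ he⟩
    all_goals
      have hqR : (0:ℝ) < e.1 := by exact_mod_cast q0
      have hrR : (0:ℝ) < e.2 := by exact_mod_cast r0
      obtain ⟨a1, a2⟩ := flg_spec (DD_pos q0 r0 qψ)
      rw [h5, DD_eq q0 r0] at a1 a2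
      obtain ⟨b1, b2⟩ := flg_spec (div_pos qψ hqR)
      obtain ⟨c1, c2⟩ := flg_spec (div_pos rψ hrR)
      have hk1 : flg (ψ e.1 / e.1) = K.1 := congrArg Prod.fst h3
      have hk2 : flg (ψ e.2 / e.2) = J.1 := congrArg Prod.fst h4
      rw [hk1] at b1 b2
      rw [hk2] at c1 c2
      have m2 : max (ψ e.1 / (e.1:ℝ)) (ψ e.2 / e.2) < (2:ℝ) ^ (A + 1) := max_lt
        (b2.trans_le (Real.rpow_le_rpow_of_exponent_le (by norm_num) (by linarith [le_max_left (K.1:ℝ) J.1])))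
        (c2.trans_le (Real.rpow_le_rpow_of_exponent_le (by norm_num) (by linarith [le_max_right (K.1:ℝ) J.1])))
      have m1 : (2:ℝ) ^ A ≤ max (ψ e.1 / (e.1:ℝ)) (ψ e.2 / e.2) := by
        rcases max_choice (K.1:ℝ) J.1 with h | h <;> rw [hA, h]
        · exact b1.trans (le_max_left _ _)
        · exact c1.trans (le_max_right _ _)
    · refine le_of_mul_le_mul_right ?_ (Real.rpow_pos_of_pos two_pos (A + 1))
      calc Λ * (2:ℝ) ^ (A + 1) = (2:ℝ) ^ (n:ℝ) := by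
            rw [hΛ, ← Real.rpow_add two_pos]; congr 1; ring
        _ ≤ _ := a1.trans (mul_le_mul_of_nonneg_left m2.le (Nat.cast_nonneg _))
    · refine lt_of_mul_lt_mul_right ?_ (Real.rpow_nonneg (show (0:ℝ) ≤ 2 by norm_num) A)
      calc (Nat.lcm e.1 e.2 : ℝ) * (2:ℝ) ^ A
          ≤ (Nat.lcm e.1 e.2 : ℝ) * max (ψ e.1 / (e.1:ℝ)) (ψ e.2 / e.2) :=
            mul_le_mul_of_nonneg_left m1 (Nat.cast_nonneg _)
        _ < (2:ℝ) ^ ((n:ℝ) + 1) := a2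
        _ = _ := by
            rw [hΛ, show (4:ℝ) = (2:ℝ) ^ (2:ℝ) by norm_num, ← Real.rpow_add two_pos,
              ← Real.rpow_add two_pos]
            congr 1; ring
  have hR : ∑ x ∈ E.image red, tauW x ≤ Ch * (2:ℝ) ^ (5 * (mx + 1) + ((n:ℝ) + 1) / (2 * w)) := by
    refine (hCh Lb t hLb0 ht0 ht1 _ ?_).trans (le_of_eq ?_)
    · intro x hx
      obtain ⟨e, he, rfl⟩ := mem_image.mp hx
      obtain ⟨h1, h2, h3, h4, h5, hne, hhit, hl1, hl2⟩ := hE e he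
      obtain ⟨q0, qψ, -, qL⟩ := hS _ h1
      obtain ⟨r0, rψ, -, rL⟩ := hS _ h2
      have hle : max (L e.1) (L e.2) ≤ Lb := by
        have k1 := (key_weight hε q0 qψ qL).2
        have k2 := (key_weight hε r0 rψ rL).2
        rw [h3] at k1
        rw [h4] at k2
        have u1 : (2:ℝ) ^ ((K.2:ℝ) + 1) ≤ (2:ℝ) ^ (mx + 1) :=
          Real.rpow_le_rpow_of_exponent_le (by norm_num) (by linarith [le_max_left (K.2:ℝ) J.2])
        have u2 : (2:ℝ) ^ ((J.2:ℝ) + 1) ≤ (2:ℝ) ^ (mx + 1) :=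
          Real.rpow_le_rpow_of_exponent_le (by norm_num) (by linarith [le_max_right (K.2:ℝ) J.2])
        exact max_le (by linarith) (by linarith)
      obtain ⟨p1, p2⟩ := red_pos q0 r0
      refine ⟨p1, p2, fun h => hne ?_, hl1.trans (Real.exp_le_exp.mpr hle),
        hl2.trans (Real.exp_le_exp.mpr hle), ?_⟩
      · have h1 := Nat.div_mul_cancel (Nat.gcd_dvd_left e.1 e.2)
        have h2 := Nat.div_mul_cancel (Nat.gcd_dvd_right e.1 e.2)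
        simp only [red] at h
        exact h1.symm.trans ((congrArg (fun z => z * Nat.gcd e.1 e.2) h).trans h2)
      · obtain ⟨j, hj⟩ := hhit
        refine ⟨j, hj.trans_le ?_⟩
        have h6 := (flg_spec (DD_pos q0 r0 qψ)).2
        rw [h5] at h6
        linarith
    · rw [hLb, add_sub_cancel, two_rpow_pow, ht, ← Real.rpow_mul (by norm_num), mul_assoc,
        ← Real.rpow_add two_pos]
      congr 2; push_cast; ring
  have hmn : 0 ≤ ((∑ q ∈ V, wt ε L q * ψ q) * ∑ q ∈ W, wt ε L q * ψ q) ^ (1/2 + η) :=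
    Real.rpow_nonneg (mul_nonneg (sum_nonneg fun v hv => (hμ v hv).1)
      (sum_nonneg fun v hv => (hν v hv).1)) _
  have hG := hC V W E (fun q => wt ε L q * ψ q) (fun q => wt ε L q * ψ q) ρ σ Λ (E.image red)
    (Real.rpow_nonneg (by norm_num) _) (Real.rpow_nonneg (by norm_num) _)
    (Real.rpow_nonneg (by norm_num) _) hsub hμ hν hedge
  have hB : ρ * σ * Λ ^ 2 = (2:ℝ) ^ (2 * (n:ℝ) - |(K.1:ℝ) - J.1| - ε * ((K.2:ℝ) + J.2)) := by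
    rw [hρ, hσ, hΛ, two_rpow_pow, ← Real.rpow_add two_pos, ← Real.rpow_add two_pos]
    congr 1
    rcases le_total (K.1:ℝ) J.1 with h | h
    · rw [hA, max_eq_right h, abs_of_nonpos (by linarith)]; push_cast; ring
    · rw [hA, max_eq_left h, abs_of_nonneg (by linarith)]; push_cast; ring
  calc ∑ e ∈ E, (wt ε L e.1 * ψ e.1) * (wt ε L e.2 * ψ e.2) / DD ψ e.1 e.2
      ≤ ∑ e ∈ E, (wt ε L e.1 * ψ e.1) * (wt ε L e.2 * ψ e.2) * (2:ℝ) ^ (-(n:ℝ)) := by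
        refine sum_le_sum fun e he => ?_
        obtain ⟨h1, h2, -, -, h5, -⟩ := hE e he
        obtain ⟨q0, qψ, -, qL⟩ := hS _ h1
        obtain ⟨r0, rψ, -, rL⟩ := hS _ h2
        rw [Real.rpow_neg (by norm_num), ← div_eq_mul_inv]
        refine div_le_div_of_nonneg_left
          (mul_nonneg (mul_nonneg (wt_bounds hε q0 qL).1 qψ.le)
            (mul_nonneg (wt_bounds hε r0 rL).1 rψ.le)) (Real.rpow_pos_of_pos two_pos _) ?_
        have := (flg_spec (DD_pos q0 r0 qψ)).1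
        rwa [h5] at this
    _ ≤ (C * (ρ * σ * Λ ^ 2) ^ θ * (Ch * (2:ℝ) ^ (5 * (mx + 1) + ((n:ℝ) + 1) / (2 * w))) ^ b *
          ((∑ q ∈ V, wt ε L q * ψ q) * ∑ q ∈ W, wt ε L q * ψ q) ^ (1/2 + η)) *
            (2:ℝ) ^ (-(n:ℝ)) := by
        rw [← sum_mul]
        refine mul_le_mul_of_nonneg_right (hG.trans ?_) (Real.rpow_nonneg (by norm_num) _)
        refine mul_le_mul_of_nonneg_right (mul_le_mul_of_nonneg_left
          (Real.rpow_le_rpow (sum_nonneg fun x _ => tauW_nonneg x) hR hb0.le) ?_) hmn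
        exact mul_nonneg hC0 (Real.rpow_nonneg (by rw [hB]; exact Real.rpow_nonneg (by norm_num) _) _)
    _ = C * Ch ^ b * ((2:ℝ) ^ ((2 * (n:ℝ) - |(K.1:ℝ) - J.1| - ε * ((K.2:ℝ) + J.2)) * θ +
          (5 * (mx + 1) + ((n:ℝ) + 1) / (2 * w)) * b + -(n:ℝ))) *
          ((∑ q ∈ V, wt ε L q * ψ q) * ∑ q ∈ W, wt ε L q * ψ q) ^ (1/2 + η) := by
        rw [hB, Real.mul_rpow hCh0 (Real.rpow_nonneg (by norm_num) _),
          ← Real.rpow_mul (by norm_num), ← Real.rpow_mul (by norm_num), Real.rpow_add two_pos,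
          Real.rpow_add two_pos]
        ring
    _ ≤ C * Ch ^ b * ((2:ℝ) ^ (2 + ((b / (2 * (w:ℝ)) - 2 * η) * n +
          (-θ * |(K.1:ℝ) - J.1| - θ * ε / 2 * ((K.2:ℝ) + J.2))))) *
          ((∑ q ∈ V, wt ε L q * ψ q) * ∑ q ∈ W, wt ε L q * ψ q) ^ (1/2 + η) := by
        refine mul_le_mul_of_nonneg_right (mul_le_mul_of_nonneg_left
          (Real.rpow_le_rpow_of_exponent_le (by norm_num) ?_)
          (mul_nonneg hC0 (Real.rpow_nonneg hCh0 _))) hmn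
        have e1 : 5 * mx * b ≤ θ * ε / 2 * ((K.2:ℝ) + J.2) := by
          have h1 : mx ≤ (K.2:ℝ) + J.2 := max_le
            (by linarith [Nat.cast_nonneg (α := ℝ) J.2]) (by linarith [Nat.cast_nonneg (α := ℝ) K.2])
          calc 5 * mx * b = (5 * β) * mx * θ := by rw [hb]; ring
            _ ≤ ε / 2 * ((K.2:ℝ) + J.2) * θ :=
              mul_le_mul_of_nonneg_right (mul_le_mul hβε h1 hmx0 (by linarith)) hθ0.le
            _ = _ := by ring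
        have e2 : b ≤ 1/4 := by
          rw [hb]
          calc β * θ ≤ (1/2) * (1/2) :=
                mul_le_mul hβ' (by rw [hθ]; linarith) hθ0.le (by norm_num)
            _ = 1/4 := by norm_num
        have e3 : b / (2 * (w:ℝ)) ≤ b := div_le_self hb0.le (by linarith)
        have e4 : ((n:ℝ) + 1) / (2 * w) * b = b / (2 * (w:ℝ)) * n + b / (2 * (w:ℝ)) := by ring
        have e5 : 2 * θ - 1 = -(2 * η) := by rw [hθ]; ring
        nlinarith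
    _ = _ := by
        rw [Real.rpow_add two_pos, Real.rpow_add two_pos, show (2:ℝ) ^ (2:ℝ) = 4 by norm_num]
        ring

/-- the close pairs, summed over classes and scales -/
theorem close_le {η ε C1 κ : ℝ} (hη : 0 < η) (hη' : η ≤ 1/4) (hε : 0 < ε) (hκ : 0 < κ)
    (hC1 : 0 ≤ C1) (ψ L : ℕ → ℝ) (S : Finset ℕ) (μ : ℕ → ℝ) (hμ : ∀ q ∈ S, 0 ≤ μ q)
    (E : Finset (ℕ × ℕ)) (hE : E ⊆ S ×ˢ S) (hneg : ∀ e ∈ E, flg (DD ψ e.1 e.2) ≤ -1)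
    (hgroup : ∀ (K J : ℤ × ℕ) (n : ℤ), n ≤ -1 →
      ∑ e ∈ E.filter (fun e => ((key ψ L e.1, key ψ L e.2), flg (DD ψ e.1 e.2)) = ((K, J), n)),
        μ e.1 * μ e.2 / DD ψ e.1 e.2 ≤ C1 * (2:ℝ) ^ (κ * n) *
          ((2:ℝ) ^ (-(1/2 - η) * |(K.1:ℝ) - J.1| - (1/2 - η) * ε / 2 * ((K.2:ℝ) + J.2)) *
          ((∑ q ∈ S.filter (fun q => key ψ L q = K), μ q) *
            ∑ q ∈ S.filter (fun q => key ψ L q = J), μ q) ^ (1/2 + η))) :
    ∑ e ∈ E, μ e.1 * μ e.2 / DD ψ e.1 e.2 ≤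
      C1 * (1 + 2 * (2:ℝ) ^ (-κ) / (1 - (2:ℝ) ^ (-κ))) *
        ((1 + 2 * (2:ℝ) ^ (-(1/2 - η)) / (1 - (2:ℝ) ^ (-(1/2 - η)))) *
          (1 - (2:ℝ) ^ (-((1/2 - η) * ε / 2)))⁻¹ * (1 + ∑ q ∈ S, μ q) ^ 2) := by
  classical
  set θ := 1/2 - η with hθ
  have hθ0 : 0 < θ := by rw [hθ]; linarith
  set δ := θ * ε / 2 with hδ
  have hδ0 : 0 < δ := by positivity
  set Ks := S.image (key ψ L) with hKs
  set Ns := E.image (fun e => flg (DD ψ e.1 e.2)) with hNs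
  set m : ℤ × ℕ → ℝ := fun K => ∑ q ∈ S.filter (fun q => key ψ L q = K), μ q with hm
  have hm0 : ∀ K, 0 ≤ m K := fun K => sum_nonneg fun q hq => hμ q (mem_filter.mp hq).1
  have hr0 : (0:ℝ) ≤ (2:ℝ) ^ (-κ) := Real.rpow_nonneg (by norm_num) _
  have hr1 : (2:ℝ) ^ (-κ) < 1 := Real.rpow_lt_one_of_one_lt_of_neg (by norm_num) (by linarith)
  have hN1 : ∀ n ∈ Ns, n ≤ -1 := by
    intro n hn
    obtain ⟨e, he, rfl⟩ := mem_image.mp hn
    exact hneg e he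
  set g : ℕ × ℕ → ((ℤ × ℕ) × (ℤ × ℕ)) × ℤ :=
    fun e => ((key ψ L e.1, key ψ L e.2), flg (DD ψ e.1 e.2)) with hg
  have hmap : ∀ e ∈ E, g e ∈ (Ks ×ˢ Ks) ×ˢ Ns := fun e he => by
    have h := mem_product.mp (hE he)
    simp only [hg, mem_product, hKs, hNs, mem_image]
    exact ⟨⟨⟨e.1, h.1, rfl⟩, ⟨e.2, h.2, rfl⟩⟩, ⟨e, he, rfl⟩⟩
  rw [← sum_fiberwise_of_maps_to hmap (fun e : ℕ × ℕ => μ e.1 * μ e.2 / DD ψ e.1 e.2)]
  have e : ∀ n ∈ Ns, (2:ℝ) ^ (κ * n) = ((2:ℝ) ^ (-κ)) ^ n.natAbs := fun n hn => by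
    have h0 : (n:ℝ) ≤ 0 := by exact_mod_cast (show n ≤ 0 by linarith [hN1 n hn])
    rw [two_rpow_pow, Nat.cast_natAbs, Int.cast_abs, abs_of_nonpos h0]
    congr 1; ring
  calc _ ≤ ∑ x ∈ (Ks ×ˢ Ks) ×ˢ Ns, C1 * ((2:ℝ) ^ (-κ)) ^ x.2.natAbs *
        ((2:ℝ) ^ (-θ * |(x.1.1.1:ℝ) - x.1.2.1| - δ * ((x.1.1.2:ℝ) + x.1.2.2)) *
          (m x.1.1 * m x.1.2) ^ (1/2 + η)) := by
        refine sum_le_sum ?_
        rintro ⟨⟨K, J⟩, n⟩ hx
        have hx2 : n ∈ Ns := (mem_product.mp hx).2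
        have h := hgroup K J n (hN1 n hx2)
        rw [e n hx2] at h
        exact h
    _ = C1 * (∑ n ∈ Ns, ((2:ℝ) ^ (-κ)) ^ n.natAbs) * ∑ K ∈ Ks, ∑ J ∈ Ks,
          (2:ℝ) ^ (-θ * |(K.1:ℝ) - J.1| - δ * ((K.2:ℝ) + J.2)) * (m K * m J) ^ (1/2 + η) := by
        rw [sum_product, sum_product, mul_sum, mul_sum]
        refine sum_congr rfl fun K _ => ?_
        rw [mul_sum]
        refine sum_congr rfl fun J _ => ?_
        rw [sum_mul]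
    _ ≤ _ := by
        have h1 := kernel_form hθ0 hδ0 hη hη' Ks m hm0
        have e : ∑ K ∈ Ks, m K = ∑ q ∈ S, μ q :=
          sum_fiberwise_of_maps_to (fun q hq => mem_image_of_mem _ hq) _
        rw [e] at h1
        exact mul_le_mul (mul_le_mul_of_nonneg_left (geom_int hr0 hr1 Ns).1 hC1) h1
          (sum_nonneg fun K _ => sum_nonneg fun J _ => mul_nonneg (Real.rpow_nonneg (by norm_num) _)
            (Real.rpow_nonneg (mul_nonneg (hm0 K) (hm0 J)) _))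
          (mul_nonneg hC1 (add_nonneg zero_le_one
            (div_nonneg (mul_nonneg (by norm_num) hr0) (by linarith))))

/-- The second moment bound. -/
theorem second (hP : PairStmt) (hH : HitsStmt) (hG : GcdStmt) : SecondStmt := by
  intro γ w c ε hD hε
  classical
  obtain ⟨Ch, hCh0, hCh⟩ := hH γ w c hD
  have hw : 1 ≤ w := hD.1
  have hwR : (1:ℝ) ≤ w := by exact_mod_cast hw
  set β := min (ε / 10) (1/2) with hβdef
  have hβ : 0 < β := lt_min (by linarith) (by norm_num)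
  have hβ' : β ≤ 1/2 := min_le_right _ _
  have hβε : 5 * β ≤ ε / 2 := by linarith [min_le_left (ε / 10) (1/2 : ℝ)]
  set η := β / (32 * (w:ℝ)) with hηdef
  have hη : 0 < η := by positivity
  have hη' : η ≤ 1/4 := by
    rw [hηdef, div_le_iff₀ (by positivity)]; linarith
  obtain ⟨C, hC0, hC⟩ := hG η β hη hη' hβ hβ'
  set θ := 1/2 - η with hθ
  have hθ0 : 0 < θ := by rw [hθ]; linarith
  set κ := β * θ / (2 * (w:ℝ)) - 2 * η with hκ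
  have hκ0 : 0 < κ := by
    have h : β * (1/4) / (2 * (w:ℝ)) ≤ β * θ / (2 * (w:ℝ)) := by
      gcongr; rw [hθ]; linarith
    have h2 : β * (1/4) / (2 * (w:ℝ)) = 4 * η := by rw [hηdef]; field_simp; ring
    rw [hκ]; linarith
  set δ := θ * ε / 2 with hδ
  have hδ0 : 0 < δ := by positivity
  set r := (2:ℝ) ^ (-κ) with hr
  have hr0 : 0 ≤ r := Real.rpow_nonneg (by norm_num) _
  have hr1 : r < 1 := Real.rpow_lt_one_of_one_lt_of_neg (by norm_num) (by linarith)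
  set C1 := 4 * C * Ch ^ (β * θ) with hC1
  set G := (1 + 2 * (2:ℝ) ^ (-θ) / (1 - (2:ℝ) ^ (-θ))) * (1 - (2:ℝ) ^ (-δ))⁻¹ with hGdef
  have hC10 : 0 ≤ C1 := by positivity
  refine ⟨40 + 40 + 40 * (C1 * (1 + 2 * r / (1 - r)) * G), ?_⟩
  intro ψ L S hS hprop
  set μ : ℕ → ℝ := fun q => wt ε L q * ψ q with hμdef
  have hμ0 : ∀ q ∈ S, 0 ≤ μ q := fun q hq =>
    mul_nonneg (wt_bounds hε (hS q hq).1 (hS q hq).2.2.2).1 (hS q hq).2.1.le
  set M := ∑ q ∈ S, μ q with hM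
  have hM0 : 0 ≤ M := sum_nonneg hμ0
  set E := (S ×ˢ S).filter (fun e => e.1 ≠ e.2 ∧ DD ψ e.1 e.2 < 1 ∧ HitD γ ψ e.1 e.2) with hEdef
  -- each pair
  have hterm : ∀ q ∈ S, ∀ s ∈ S, wt ε L q * wt ε L s *
      volume.real (Vale.P028.Hit q γ (ψ q) ∩ Vale.P028.Hit s γ (ψ s) ∩ Set.Ico 0 1) ≤
      40 * (μ q * μ s) + (if q = s then 40 * μ q else 0) +
        (if q ≠ s ∧ DD ψ q s < 1 ∧ HitD γ ψ q s then 40 * (μ q * μ s / DD ψ q s) else 0) := by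
    intro q hq s hs
    obtain ⟨q0, qψ, qh, qL⟩ := hS q hq
    obtain ⟨s0, sψ, sh, sL⟩ := hS s hs
    obtain ⟨p1, p2, p3⟩ := hP γ ψ q s q0 s0 qψ qh sψ sh
    obtain ⟨a0, a1⟩ := wt_bounds hε q0 qL
    obtain ⟨b0, b1⟩ := wt_bounds hε s0 sL
    have hμμ : 0 ≤ 40 * (μ q * μ s) := mul_nonneg (by norm_num) (mul_nonneg (hμ0 q hq) (hμ0 s hs))
    rcases eq_or_ne q s with rfl | hne
    · rw [if_pos rfl, if_neg (fun h => h.1 rfl), add_zero]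
      have h := p2 (by rw [DD_self q0]; linarith)
      rw [DD_self q0, mul_div_assoc, div_self qψ.ne', mul_one] at h
      calc wt ε L q * wt ε L q * _ ≤ wt ε L q * wt ε L q * (40 * ψ q) :=
            mul_le_mul_of_nonneg_left h (mul_nonneg a0 a0)
        _ ≤ wt ε L q * 1 * (40 * ψ q) :=
            mul_le_mul_of_nonneg_right (mul_le_mul_of_nonneg_left a1 a0) (by linarith)
        _ = 40 * μ q := by simp only [hμdef]; ring
        _ ≤ _ := le_add_of_nonneg_left hμμ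
    · rw [if_neg hne, add_zero]
      have hD0 := DD_pos (ψ := ψ) q0 s0 qψ
      by_cases hh : DD ψ q s < 1 ∧ HitD γ ψ q s
      · rw [if_pos ⟨hne, hh⟩]
        refine le_trans (le_trans (mul_le_mul_of_nonneg_left (p2 hh.1) (mul_nonneg a0 b0))
          (le_of_eq ?_)) (le_add_of_nonneg_left hμμ)
        simp only [hμdef]; field_simp
      · rw [if_neg (fun h => hh h.2), add_zero]
        rcases lt_or_ge (DD ψ q s) 1 with h | h
        · exact (mul_nonpos_of_nonneg_of_nonpos (mul_nonneg a0 b0)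
            (p3 fun h' => hh ⟨h, h'⟩)).trans hμμ
        · refine (mul_le_mul_of_nonneg_left (p1 h) (mul_nonneg a0 b0)).trans (le_of_eq ?_)
          simp only [hμdef]; ring
  have hsplit : ∑ q ∈ S, ∑ s ∈ S, wt ε L q * wt ε L s *
      volume.real (Vale.P028.Hit q γ (ψ q) ∩ Vale.P028.Hit s γ (ψ s) ∩ Set.Ico 0 1) ≤
      40 * M ^ 2 + 40 * M + 40 * ∑ e ∈ E, μ e.1 * μ e.2 / DD ψ e.1 e.2 := by
    refine (sum_le_sum fun q hq => sum_le_sum fun s hs => hterm q hq s hs).trans (le_of_eq ?_)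
    simp only [sum_add_distrib]
    congr 1
    · congr 1
      · rw [sq, hM, sum_mul_sum, mul_sum]
        exact sum_congr rfl fun q _ => (mul_sum _ _ _).symm
      · rw [hM, mul_sum]
        exact sum_congr rfl fun q hq => by rw [sum_ite_eq, if_pos hq]
    · rw [hEdef, mul_sum, sum_filter, sum_product]
  -- the close pairs
  have hclose : ∑ e ∈ E, μ e.1 * μ e.2 / DD ψ e.1 e.2 ≤
      C1 * (1 + 2 * r / (1 - r)) * (G * (1 + M) ^ 2) := by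
    refine close_le hη hη' hε hκ0 hC10 ψ L S μ hμ0 E (filter_subset _ _) (fun e he => ?_)
      (fun K J n hn => ?_)
    · obtain ⟨h1, -, h3, -⟩ := mem_filter.mp he
      obtain ⟨h1a, h1b⟩ := mem_product.mp h1
      have hlt : Real.logb 2 (DD ψ e.1 e.2) < 0 :=
        Real.logb_neg one_lt_two (DD_pos (hS _ h1a).1 (hS _ h1b).1 (hS _ h1a).2.1) h3
      have : flg (DD ψ e.1 e.2) < 0 := Int.floor_lt.mpr (by simpa using hlt)
      omega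
    · refine group_le (γ := γ) hη hη' hβ hβ' hε hβε hw hC0 hCh0 hC hCh ψ L S hS K J n hn _
        fun e he => ?_
      obtain ⟨he, hx⟩ := mem_filter.mp he
      obtain ⟨hp, hne, hlt, hhit⟩ := mem_filter.mp he
      obtain ⟨h1, h2⟩ := mem_product.mp hp
      simp only [Prod.mk.injEq] at hx
      exact ⟨h1, h2, hx.1.1, hx.1.2, hx.2, hne, hhit, hprop _ h1 _ h2 hlt⟩
  refine hsplit.trans ?_
  have h1 : M ^ 2 ≤ (1 + M) ^ 2 := pow_le_pow_left₀ hM0 (by linarith) 2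
  have h2 : M ≤ (1 + M) ^ 2 := by nlinarith
  linarith

end Vale.P028NF
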