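import Vale.Agent.P028.Main

/-! # P028 near-full theorem: frozen definitions and module statements -/

open MeasureTheory Set

namespace Vale.P028NF

/-- `gamma` is irrational and not Liouville, in quantitative form. -/
def Dioph (γ : ℝ) (w : ℕ) (c : ℝ) : Prop :=
  1 ≤ w ∧ 0 < c ∧ ∀ h : ℕ, 1 ≤ h → ∀ j : ℤ, c ≤ (h : ℝ) ^ w * |(h : ℝ) * γ + j|

/-- the reduced pair `(v / gcd, w / gcd)` -/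
def red (e : ℕ × ℕ) : ℕ × ℕ := (e.1 / Nat.gcd e.1 e.2, e.2 / Nat.gcd e.1 e.2)

/-- weight of a reduced pair -/
noncomputable def tauW (x : ℕ × ℕ) : ℝ :=
  ((x.1.divisors.card : ℝ) * x.2.divisors.card) / ((x.1 : ℝ) * x.2)

/-- `D = max (psi_q r', psi_r q')` -/
noncomputable def DD (ψ : ℕ → ℝ) (q r : ℕ) : ℝ :=
  max (((red (q, r)).2 : ℝ) * ψ q) (((red (q, r)).1 : ℝ) * ψ r)

/-- some integer is within `2 D` of `-gamma (r' - q')` -/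
def HitD (γ : ℝ) (ψ : ℕ → ℝ) (q r : ℕ) : Prop :=
  ∃ j : ℤ, |(j : ℝ) + γ * (((red (q, r)).2 : ℝ) - (red (q, r)).1)| < 2 * DD ψ q r

/-- the weight `(phi(q)/q) (1 + L_q)^(-eps)` -/
noncomputable def wt (ε : ℝ) (L : ℕ → ℝ) (q : ℕ) : ℝ :=
  (Nat.totient q : ℝ) / q * (1 + L q) ^ (-ε)

/-- Module `Hits`: the weighted count of reduced pairs with a hit. -/
def HitsStmt : Prop :=
  ∀ (γ : ℝ) (w : ℕ) (c : ℝ), Dioph γ w c → ∃ C : ℝ, 0 ≤ C ∧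
    ∀ (L t : ℝ), 0 ≤ L → 0 < t → t ≤ 1 → ∀ R : Finset (ℕ × ℕ),
      (∀ x ∈ R, 1 ≤ x.1 ∧ 1 ≤ x.2 ∧ x.1 ≠ x.2 ∧ (x.1 : ℝ) ≤ Real.exp L ∧
        (x.2 : ℝ) ≤ Real.exp L ∧
        ∃ j : ℤ, |(j : ℝ) + γ * ((x.2 : ℝ) - x.1)| < 2 * t) →
      ∑ x ∈ R, tauW x ≤ C * (1 + L) ^ 5 * t ^ (1 / (2 * (w : ℝ)))

/-- Module `Pairs`: overlap of two sets in a period. -/
def PairStmt : Prop :=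
  ∀ (γ : ℝ) (ψ : ℕ → ℝ) (q r : ℕ), 0 < q → 0 < r → 0 < ψ q → ψ q ≤ 1/2 → 0 < ψ r → ψ r ≤ 1/2 →
    (1 ≤ DD ψ q r → volume.real (Vale.P028.Hit q γ (ψ q) ∩ Vale.P028.Hit r γ (ψ r) ∩ Ico 0 1)
        ≤ 40 * ψ q * ψ r) ∧
    (DD ψ q r < 1 → volume.real (Vale.P028.Hit q γ (ψ q) ∩ Vale.P028.Hit r γ (ψ r) ∩ Ico 0 1)
        ≤ 40 * ψ q * ψ r / DD ψ q r) ∧
    (¬ HitD γ ψ q r → volume.real (Vale.P028.Hit q γ (ψ q) ∩ Vale.P028.Hit r γ (ψ r) ∩ Ico 0 1)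
        ≤ 0)

/-- Module `Full`: a second moment bound on unit blocks gives full measure. -/
def FullStmt : Prop :=
  ∀ (γ : ℝ) (ψ : ℕ → ℝ) (f : ℕ → ℝ) (P : ℝ), (∀ q, 0 ≤ f q ∧ f q ≤ 1) →
    (∀ Q : ℕ, ∃ S : Finset ℕ, (∀ q ∈ S, Q ≤ q ∧ 0 < q ∧ 0 ≤ ψ q ∧ ψ q ≤ 1/2) ∧
      1 ≤ ∑ q ∈ S, f q * ψ q ∧ ∑ q ∈ S, f q * ψ q ≤ 2 ∧
      ∑ q ∈ S, ∑ r ∈ S, f q * f r *
        volume.real (Vale.P028.Hit q γ (ψ q) ∩ Vale.P028.Hit r γ (ψ r) ∩ Ico 0 1) ≤ P) →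
    volume {x : ℝ | ¬ {q : ℕ | 0 < q ∧ ∃ a : ℤ, |(q : ℝ) * x - a - γ| < ψ q}.Infinite} = 0

/-- Module `Gcd`: the bilinear gcd inequality. -/
def GcdStmt : Prop :=
  ∀ (η β : ℝ), 0 < η → η ≤ 1/4 → 0 < β → β ≤ 1/2 → ∃ C : ℝ, 0 ≤ C ∧
    ∀ (V W : Finset ℕ) (E : Finset (ℕ × ℕ)) (μ ν : ℕ → ℝ) (ρ σ Λ : ℝ) (R : Finset (ℕ × ℕ)),
      0 ≤ ρ → 0 ≤ σ → 0 ≤ Λ → E ⊆ V ×ˢ W →
      (∀ v ∈ V, 0 ≤ μ v ∧ μ v ≤ ρ * (Nat.totient v : ℝ)) →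
      (∀ v ∈ W, 0 ≤ ν v ∧ ν v ≤ σ * (Nat.totient v : ℝ)) →
      (∀ e ∈ E, 0 < e.1 ∧ 0 < e.2 ∧ Λ ≤ (Nat.lcm e.1 e.2 : ℝ) ∧
        (Nat.lcm e.1 e.2 : ℝ) < 4 * Λ ∧ red e ∈ R) →
      ∑ e ∈ E, μ e.1 * ν e.2 ≤ C * (ρ * σ * Λ ^ 2) ^ (1/2 - η) *
        (∑ x ∈ R, tauW x) ^ (β * (1/2 - η)) *
        ((∑ v ∈ V, μ v) * (∑ v ∈ W, ν v)) ^ (1/2 + η)

/-- Module `Sum`: the second moment bound. -/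
def SecondStmt : Prop :=
  ∀ (γ : ℝ) (w : ℕ) (c ε : ℝ), Dioph γ w c → 0 < ε → ∃ C : ℝ,
    ∀ (ψ L : ℕ → ℝ) (S : Finset ℕ),
      (∀ q ∈ S, 0 < q ∧ 0 < ψ q ∧ ψ q ≤ 1/2 ∧ 0 ≤ L q) →
      (∀ q ∈ S, ∀ r ∈ S, DD ψ q r < 1 →
        ((red (q, r)).1 : ℝ) ≤ Real.exp (max (L q) (L r)) ∧
        ((red (q, r)).2 : ℝ) ≤ Real.exp (max (L q) (L r))) →
      ∑ q ∈ S, ∑ r ∈ S, wt ε L q * wt ε L r *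
        volume.real (Vale.P028.Hit q γ (ψ q) ∩ Vale.P028.Hit r γ (ψ r) ∩ Ico 0 1)
        ≤ C * (1 + ∑ q ∈ S, wt ε L q * ψ q) ^ 2

end Vale.P028NF
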