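import Vale.Agent.P028.NF.Defs

/-! # P028 near-full: full measure from a weighted second moment on blocks -/

open MeasureTheory Set Metric Filter Topology
open Vale.P028
open scoped ENNReal

namespace Vale.P028NF

open scoped Classical in
/-- The missed set is null. -/
theorem volume_miss (γ : ℝ) (ψ : ℕ → ℝ) (f : ℕ → ℝ) (P : ℝ) (hP : 0 < P) (hf : ∀ q, 0 ≤ f q)
    (hblock : ∀ Q : ℕ, ∃ S : Finset ℕ, (∀ q ∈ S, Q ≤ q ∧ 0 < q ∧ 0 ≤ ψ q ∧ ψ q ≤ 1/2) ∧
      1 ≤ ∑ q ∈ S, f q * ψ q ∧
      ∑ q ∈ S, ∑ r ∈ S, f q * f r *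
        volume.real (Hit q γ (ψ q) ∩ Hit r γ (ψ r) ∩ Ico 0 1) ≤ P)
    (M : ℕ) : volume (Miss ψ (fun _ => γ) M) = 0 := by
  set K := Miss ψ (fun _ => γ) M with hK
  have hKc : IsCompact K := isCompact_miss ψ (fun _ => γ) M
  have hKfin : volume K ≠ ∞ := hKc.measure_lt_top.ne
  by_contra hne
  set κ := volume.real K with hκ
  have hκ0 : 0 < κ := ENNReal.toReal_pos hne hKfin
  set c : ℝ := 4 * P / κ with hc
  have hc0 : 0 < c := by positivity
  set ε : ℝ := κ / (4 * c) with hε
  have hε0 : 0 < ε := by positivity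
  have ht : Tendsto (fun r => volume (cthickening r K)) (𝓝 0) (𝓝 (volume K)) :=
    tendsto_measure_cthickening_of_isCompact hKc
  have hev : ∀ᶠ r in 𝓝 (0:ℝ), volume (cthickening r K) < volume K + ENNReal.ofReal ε :=
    ht.eventually (eventually_lt_nhds (ENNReal.lt_add_right hKfin (by simpa using hε0)))
  obtain ⟨η, hη0, hη⟩ := Metric.eventually_nhds_iff.mp hev
  obtain ⟨N, hN⟩ := exists_nat_gt (2 / η)
  have hN0 : 0 < N := by
    by_contra h
    have : N = 0 := by omega
    subst this
    have : 0 < 2 / η := by positivity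
    simp at hN; linarith
  have hNR : (0:ℝ) < N := by exact_mod_cast hN0
  have hrad : volume (cthickening (1 / (N:ℝ)) K) < volume K + ENNReal.ofReal ε := by
    refine hη ?_
    rw [Real.dist_eq, sub_zero, abs_of_pos (by positivity), div_lt_iff₀ hNR]
    rw [div_lt_iff₀ hη0] at hN
    linarith
  set cell : ℕ → Set ℝ := fun j => Ico ((j:ℝ) / N) (((j:ℝ) + 1) / N) with hcell
  set J : Finset ℕ := (Finset.range N).filter (fun j => (cell j ∩ K).Nonempty) with hJ
  set U : Set ℝ := ⋃ j ∈ J, cell j with hU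
  have hUI : U ⊆ Ico 0 1 := by
    intro x hx
    simp only [hU, mem_iUnion₂] at hx
    obtain ⟨j, hj, h1, h2⟩ := hx
    have hjN : (j:ℝ) + 1 ≤ N := by
      exact_mod_cast Finset.mem_range.mp (Finset.mem_filter.mp hj).1
    refine ⟨le_trans (by positivity) h1, lt_of_lt_of_le h2 ?_⟩
    rw [div_le_one hNR]; exact hjN
  have hKU : K ∩ Ico 0 1 ⊆ U := by
    rintro x ⟨hxK, hx0, hx1⟩
    have h0 : 0 ≤ (N:ℝ) * x := by positivity
    have hl : ⌊(N:ℝ) * x⌋₊ < N := by rw [Nat.floor_lt h0]; nlinarith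
    have hxc : x ∈ cell ⌊(N:ℝ) * x⌋₊ := by
      refine ⟨?_, ?_⟩
      · rw [div_le_iff₀ hNR]; linarith [Nat.floor_le h0]
      · rw [lt_div_iff₀ hNR]; linarith [Nat.lt_floor_add_one ((N:ℝ) * x)]
    exact mem_biUnion (x := ⌊(N:ℝ) * x⌋₊)
      (Finset.mem_filter.mpr ⟨Finset.mem_range.mpr hl, x, hxc, hxK⟩) hxc
  have hUth : U ⊆ cthickening (1 / (N:ℝ)) K := by
    intro x hx
    simp only [hU, mem_iUnion₂] at hx
    obtain ⟨j, hj, h1, h2⟩ := hx
    obtain ⟨y, ⟨y1, y2⟩, hyK⟩ := (Finset.mem_filter.mp hj).2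
    refine mem_cthickening_of_dist_le x y _ K hyK ?_
    rw [Real.dist_eq, abs_le]
    have e : ((j:ℝ) + 1) / N = (j:ℝ) / N + 1 / N := by ring
    constructor <;> linarith
  have hUm : MeasurableSet U := Finset.measurableSet_biUnion _ fun j _ => measurableSet_Ico
  have hKm : MeasurableSet K := hKc.isClosed.measurableSet
  set E : Set ℝ := U \ K with hE
  have hEm : MeasurableSet E := hUm.diff hKm
  have hfinU : volume U ≠ ∞ := ne_top_of_le_ne_top (by simp [Real.volume_Ico]) (measure_mono hUI)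
  have hUge : κ ≤ volume.real U := by
    have h1 : K ⊆ U ∪ {1} := by
      intro x hx
      rcases eq_or_ne x 1 with h | h
      · exact Or.inr h
      · exact Or.inl (hKU ⟨hx, hx.1.1, lt_of_le_of_ne hx.1.2 h⟩)
    have h2 : volume K ≤ volume U := by
      calc volume K ≤ volume (U ∪ {1}) := measure_mono h1
        _ ≤ volume U + volume ({1} : Set ℝ) := measure_union_le _ _
        _ = volume U := by simp
    exact ENNReal.toReal_mono hfinU h2
  have hEle : volume.real E ≤ ε := by
    have hsub : E ⊆ cthickening (1 / (N:ℝ)) K \ K := diff_subset_diff_left hUth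
    have hfin : volume (cthickening (1 / (N:ℝ)) K) ≠ ∞ := ne_top_of_lt hrad
    have h1 : volume.real E ≤ volume.real (cthickening (1 / (N:ℝ)) K \ K) :=
      measureReal_mono hsub (ne_top_of_le_ne_top hfin (measure_mono diff_subset))
    rw [measureReal_diff (self_subset_cthickening K) hKm hfin] at h1
    have h2 : volume.real (cthickening (1 / (N:ℝ)) K) ≤ κ + ε := by
      have := ENNReal.toReal_mono (ENNReal.add_ne_top.mpr ⟨hKfin, ENNReal.ofReal_ne_top⟩) hrad.le
      rwa [ENNReal.toReal_add hKfin ENNReal.ofReal_ne_top, ENNReal.toReal_ofReal hε0.le] at this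
    linarith
  -- the block
  obtain ⟨Qn, hQn⟩ := exists_nat_gt (16 * (N:ℝ) / κ)
  obtain ⟨S, hS, hs1, hpairs⟩ := hblock (max M Qn)
  set s := ∑ q ∈ S, f q * ψ q with hs
  set A : ℕ → Set ℝ := fun q => Hit q γ (ψ q) with hA
  have hAm : ∀ q, MeasurableSet (A q) := fun q => measurableSet_hit _ _ _
  set ν := volume.restrict (Ico (0:ℝ) 1) with hν
  have : IsFiniteMeasure ν := ⟨by rw [hν, Measure.restrict_apply_univ]; simp⟩
  have hνr : ∀ X, MeasurableSet X → ν.real X = volume.real (X ∩ Ico 0 1) := fun X hX => by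
    rw [hν, measureReal_def, measureReal_def, Measure.restrict_apply hX]
  -- lower bound
  have hlow : ∀ q ∈ S, (2 * κ - κ / 4) * ψ q ≤ ν.real (A q ∩ E) := by
    intro q hq
    obtain ⟨hMQ, hq0, hψ0, hhalf⟩ := hS q hq
    have hM : M ≤ q := le_trans (le_max_left _ _) hMQ
    have hQ : Qn ≤ q := le_trans (le_max_right _ _) hMQ
    have e : A q ∩ E = A q ∩ U := by
      ext x
      constructor
      · exact fun h => ⟨h.1, h.2.1⟩
      · exact fun h => ⟨h.1, h.2, fun hxK => hxK.2 q hM h.1⟩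
    rw [e, hνr _ ((hAm q).inter hUm), inter_assoc, inter_eq_left.mpr hUI]
    have hd : (J : Set ℕ).PairwiseDisjoint cell := by
      intro i _ j _ hij
      refine Set.disjoint_left.mpr fun x hxi hxj => hij ?_
      have a1 := hxi.1; have a2 := hxi.2; have b1 := hxj.1; have b2 := hxj.2
      rw [div_le_iff₀ hNR] at a1 b1
      rw [lt_div_iff₀ hNR] at a2 b2
      have c1 : (i:ℝ) < j + 1 := by linarith
      have c2 : (j:ℝ) < i + 1 := by linarith
      have d1 : i < j + 1 := by exact_mod_cast c1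
      have d2 : j < i + 1 := by exact_mod_cast c2
      omega
    have h1 : volume.real U = ∑ j ∈ J, volume.real (cell j) :=
      measureReal_biUnion_finset hd (fun j _ => measurableSet_Ico)
        (fun j _ => by simp [hcell, Real.volume_Ico])
    have h2 : volume.real (A q ∩ U) = ∑ j ∈ J, volume.real (A q ∩ cell j) := by
      rw [hU, inter_iUnion₂]
      exact measureReal_biUnion_finset (hd.mono_on fun j _ => inter_subset_right)
        (fun j _ => (hAm q).inter measurableSet_Ico)
        (fun j _ => ne_top_of_le_ne_top (by simp [hcell, Real.volume_Ico])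
          (measure_mono inter_subset_right))
    have h3 : ∀ j, volume.real (cell j) = 1 / N := fun j => by
      rw [hcell, measureReal_def, Real.volume_Ico, ENNReal.toReal_ofReal (by
        rw [← sub_div, add_sub_cancel_left]; positivity)]
      ring
    have hJN : (J.card : ℝ) ≤ N := by
      exact_mod_cast (Finset.card_filter_le _ _).trans (Finset.card_range N).le
    have hqR : (0:ℝ) < q := by exact_mod_cast hq0
    have hQR : (Qn:ℝ) ≤ q := by exact_mod_cast hQ
    set t := 4 * ψ q / q with ht'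
    have ht0 : 0 ≤ t := by rw [ht']; positivity
    have h5 : (N:ℝ) * t ≤ κ / 4 * ψ q := by
      have g1 : 4 * (N:ℝ) / q ≤ κ / 4 := by
        rw [div_le_iff₀ hqR]
        rw [div_lt_iff₀ hκ0] at hQn
        nlinarith
      calc (N:ℝ) * t = 4 * (N:ℝ) / q * ψ q := by rw [ht']; ring
        _ ≤ _ := mul_le_mul_of_nonneg_right g1 hψ0
    have h6 : 2 * κ * ψ q ≤ 2 * ψ q * volume.real U := by
      have := mul_le_mul_of_nonneg_left hUge hψ0
      linarith
    calc (2 * κ - κ / 4) * ψ q
        ≤ ∑ j ∈ J, (2 * ψ q * (1 / N) - t) := by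
          rw [Finset.sum_sub_distrib, Finset.sum_const, Finset.sum_const, nsmul_eq_mul, nsmul_eq_mul]
          have h7 : (J.card:ℝ) * t ≤ N * t := mul_le_mul_of_nonneg_right hJN ht0
          rw [h1, Finset.sum_congr rfl (fun j _ => h3 j), Finset.sum_const, nsmul_eq_mul] at h6
          linarith
      _ ≤ ∑ j ∈ J, volume.real (A q ∩ cell j) := Finset.sum_le_sum fun j _ => by
          refine le_trans (le_of_eq ?_)
            (cell_lower hq0 hψ0 hhalf ((j:ℝ) / N) (((j:ℝ) + 1) / N))
          rw [ht']; ring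
      _ = _ := h2.symm
  -- second moment
  have hup : ∑ q ∈ S, f q * ν.real (A q ∩ E) ≤ c * ε + P / c := by
    set n : ℝ → ℝ := fun x => ∑ q ∈ S, f q * (A q).indicator (fun _ => (1:ℝ)) x with hn
    have i1 : ∀ X, MeasurableSet X → Integrable (X.indicator fun _ => (1:ℝ)) ν :=
      fun X hX => (integrable_const 1).indicator hX
    have i2 : ∀ X, MeasurableSet X → ∫ x, X.indicator (fun _ => (1:ℝ)) x ∂ν = ν.real X :=
      fun X hX => by rw [integral_indicator_const _ hX, smul_eq_mul, mul_one]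
    have hpt : ∀ x, ∑ q ∈ S, f q * (A q ∩ E).indicator (fun _ => (1:ℝ)) x ≤
        c * E.indicator (fun _ => (1:ℝ)) x +
        (∑ q ∈ S, ∑ r ∈ S, f q * f r * (A q ∩ A r).indicator (fun _ => (1:ℝ)) x) / c := by
      intro x
      have e2 : ∑ q ∈ S, ∑ r ∈ S, f q * f r * (A q ∩ A r).indicator (fun _ => (1:ℝ)) x
          = n x ^ 2 := by
        rw [sq, hn, Finset.sum_mul_sum]
        refine Finset.sum_congr rfl fun q _ => Finset.sum_congr rfl fun r _ => ?_
        by_cases h1 : x ∈ A q <;> by_cases h2 : x ∈ A r <;> simp [h1, h2]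
      rw [e2]
      by_cases hx : x ∈ E
      · have e1 : ∑ q ∈ S, f q * (A q ∩ E).indicator (fun _ => (1:ℝ)) x = n x :=
          Finset.sum_congr rfl fun q _ => by by_cases h1 : x ∈ A q <;> simp [h1, hx]
        rw [e1, indicator_of_mem hx, mul_one]
        exact pointwise_bound _ _ hc0
      · have e1 : ∑ q ∈ S, f q * (A q ∩ E).indicator (fun _ => (1:ℝ)) x = 0 :=
          Finset.sum_eq_zero fun q _ => by simp [hx]
        rw [e1, indicator_of_notMem hx, mul_zero, zero_add]
        positivity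
    have i3 : ∀ q, Integrable (fun x => f q * (A q ∩ E).indicator (fun _ => (1:ℝ)) x) ν :=
      fun q => (i1 _ ((hAm q).inter hEm)).const_mul _
    have i4 : ∀ q r, Integrable
        (fun x => f q * f r * (A q ∩ A r).indicator (fun _ => (1:ℝ)) x) ν :=
      fun q r => (i1 _ ((hAm q).inter (hAm r))).const_mul _
    have hi : Integrable
        (fun x => ∑ q ∈ S, ∑ r ∈ S, f q * f r * (A q ∩ A r).indicator (fun _ => (1:ℝ)) x) ν :=
      integrable_finset_sum _ fun q _ => integrable_finset_sum _ fun r _ => i4 q r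
    have hint := integral_mono (integrable_finset_sum _ fun q _ => i3 q)
      (((i1 _ hEm).const_mul c).add (hi.div_const c)) hpt
    rw [integral_finset_sum _ (fun q _ => i3 q),
      Finset.sum_congr rfl (fun q _ => (integral_const_mul _ _).trans
        (congrArg (fun z => f q * z) (i2 _ ((hAm q).inter hEm))))] at hint
    refine hint.trans ?_
    simp only [Pi.add_apply]
    rw [integral_add ((i1 _ hEm).const_mul c) (hi.div_const c), integral_const_mul, integral_div,
      i2 _ hEm, integral_finset_sum _ (fun q _ => integrable_finset_sum _ fun r _ => i4 q r)]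
    have e3 : ∀ q ∈ S, ∫ x, ∑ r ∈ S, f q * f r * (A q ∩ A r).indicator (fun _ => (1:ℝ)) x ∂ν
        = ∑ r ∈ S, f q * f r * ν.real (A q ∩ A r) := fun q _ => by
      rw [integral_finset_sum _ (fun r _ => i4 q r)]
      exact Finset.sum_congr rfl fun r _ => by
        rw [integral_const_mul, i2 _ ((hAm q).inter (hAm r))]
    rw [Finset.sum_congr rfl e3]
    have hνE : ν.real E ≤ ε := by
      rw [hνr _ hEm, inter_eq_left.mpr (diff_subset.trans hUI)]; exact hEle
    have hνP : ∑ q ∈ S, ∑ r ∈ S, f q * f r * ν.real (A q ∩ A r) ≤ P := by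
      refine le_of_eq_of_le ?_ hpairs
      exact Finset.sum_congr rfl fun q _ => Finset.sum_congr rfl fun r _ => by
        rw [hνr _ ((hAm q).inter (hAm r))]
    gcongr
  -- conclusion
  have hlowsum : (2 * κ - κ / 4) * s ≤ ∑ q ∈ S, f q * ν.real (A q ∩ E) := by
    rw [hs, Finset.mul_sum]
    refine Finset.sum_le_sum fun q hq => ?_
    calc (2 * κ - κ / 4) * (f q * ψ q) = f q * ((2 * κ - κ / 4) * ψ q) := by ring
      _ ≤ _ := mul_le_mul_of_nonneg_left (hlow q hq) (hf q)
  have e1 : c * ε = κ / 4 := by rw [hε]; field_simp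
  have e2 : P / c = κ / 4 := by rw [hc]; field_simp
  nlinarith

/-- Module `Full`. -/
theorem full : FullStmt := by
  intro γ ψ f P hf hblock
  have hsub : {x : ℝ | ¬ {q : ℕ | 0 < q ∧ ∃ a : ℤ, |(q:ℝ) * x - a - γ| < ψ q}.Infinite} ⊆
      ⋃ (m : ℤ), ⋃ (M : ℕ), (fun x : ℝ => x + (-(m:ℝ))) ⁻¹' Miss ψ (fun _ => γ) M := by
    intro x hx
    rw [mem_setOf_eq, not_infinite] at hx
    obtain ⟨C, hC⟩ := hx.bddAbove
    refine mem_iUnion₂.mpr ⟨⌊x⌋, C + 1, ?_, fun q hq hhit => ?_⟩
    · constructor <;> linarith [Int.floor_le x, Int.lt_floor_add_one x]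
    · obtain ⟨a, ha⟩ := hhit
      have := hC ⟨(show 0 < q by omega), a + (q:ℤ) * ⌊x⌋,
        (le_of_eq (by congr 1; push_cast; ring)).trans_lt ha⟩
      omega
  refine measure_mono_null hsub (measure_iUnion_null fun m => measure_iUnion_null fun M => ?_)
  rw [measure_preimage_add_right]
  refine volume_miss γ ψ f (max P 1) (lt_max_of_lt_right one_pos) (fun q => (hf q).1)
    (fun Q => ?_) M
  obtain ⟨S, h1, h2, -, h4⟩ := hblock Q
  exact ⟨S, h1, h2, h4.trans (le_max_left _ _)⟩

end Vale.P028NF
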