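import Vale.Agent.P028.NF.GcdBase

/-! # P028 near-full: the bilinear gcd inequality, by induction on the primes -/

open Finset

namespace Vale.P028NF

/-- exponent difference of a pair at `p` -/
def expDiff (p : ℕ) (x : ℕ × ℕ) : ℤ := (x.1.factorization p : ℤ) - x.2.factorization p

theorem expDiff_red {p : ℕ} {e : ℕ × ℕ} (h1 : 0 < e.1) (h2 : 0 < e.2) :
    expDiff p (red e) = expDiff p e := by
  simp only [expDiff, red]
  rw [Nat.factorization_div (Nat.gcd_dvd_left _ _), Nat.factorization_div (Nat.gcd_dvd_right _ _),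
    Nat.factorization_gcd h1.ne' h2.ne']
  simp only [Finsupp.inf_apply, Finsupp.tsub_apply]
  omega

theorem factorization_mul_prime_pow {p a k r : ℕ} (hp : p.Prime) (ha : 0 < a) :
    (a * p ^ k).factorization r = a.factorization r + if r = p then k else 0 := by
  rw [Nat.factorization_mul ha.ne' (pow_ne_zero _ hp.ne_zero), Finsupp.add_apply,
    hp.factorization_pow, Finsupp.single_apply]
  congr 1
  split_ifs <;> first | rfl | omega

theorem cfg_child {p : ℕ} {T : Finset ℕ} {a M1 M2 : ℕ} {E : Finset (ℕ × ℕ)} (hp : p.Prime)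
    (hpT : p ∉ T) (h : Cfg (insert p T) a M1 M2 E) {F : Finset (ℕ × ℕ)} (hF : F ⊆ E) (x y z : ℕ)
    (hxyz : ∀ e ∈ F, y ≤ e.1.factorization p ∧ z ≤ e.2.factorization p ∧
      max (e.1.factorization p) (e.2.factorization p) =
        x + y + z + (e.1.factorization p - y - x) + (e.2.factorization p - z - x)) :
    Cfg T (a * p ^ x) (M1 * p ^ y) (M2 * p ^ z) F := by
  obtain ⟨ha, h1, h2, h0, hc⟩ := h
  refine ⟨Nat.mul_pos ha (pow_pos hp.pos _), Nat.mul_pos h1 (pow_pos hp.pos _),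
    Nat.mul_pos h2 (pow_pos hp.pos _), fun r hr => ?_, fun e he r hr => ?_⟩
  · have hrp : r ≠ p := fun hh => hpT (hh ▸ hr)
    rw [factorization_mul_prime_pow hp ha, factorization_mul_prime_pow hp h1,
      factorization_mul_prime_pow hp h2, if_neg hrp, if_neg hrp, if_neg hrp]
    simpa using h0 r (mem_insert_of_mem hr)
  · rw [factorization_mul_prime_pow hp ha, factorization_mul_prime_pow hp h1,
      factorization_mul_prime_pow hp h2]
    rcases eq_or_ne r p with hrp | hrp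
    · rw [if_pos hrp, if_pos hrp, if_pos hrp, hrp]
      obtain ⟨a0, b0, c0⟩ := h0 p (mem_insert_self _ _)
      rw [a0, b0, c0]
      simpa using hxyz e he
    · rw [if_neg hrp, if_neg hrp, if_neg hrp]
      simpa using hc e (hF he) r (by simp [hrp, hr])

section
variable {η β : ℝ} {μ ν : ℕ → ℝ} {ρ σ Λ : ℝ}

/-- The inductive statement for a set `T` of unprocessed primes, with constant `K`. -/
def Bnd (η β : ℝ) (μ ν : ℕ → ℝ) (ρ σ Λ K : ℝ) (T : Finset ℕ) : Prop :=
  ∀ (a M1 M2 : ℕ) (E R : Finset (ℕ × ℕ)), Cfg T a M1 M2 E → Edges Λ R E →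
    ∑ e ∈ E, μ e.1 * ν e.2 ≤ K * (16384 * (ρ * σ * Λ ^ 2) ^ (1/2 - η) *
      ((M1:ℝ) * M2) ^ (-((1/2 - η) * (1 - β))) * (∑ x ∈ R, tauW x) ^ (β * (1/2 - η))) *
      (mass1 μ E * mass2 ν E) ^ (1/2 + η)

theorem step (hη : 0 < η) (hη' : η ≤ 1/4) (hβ : 0 < β) (hβ' : β ≤ 1/2)
    (hμ0 : ∀ v, 0 ≤ μ v) (hν0 : ∀ v, 0 ≤ ν v) (hρ : 0 ≤ ρ) (hσ : 0 ≤ σ) {p : ℕ} (hp : p.Prime)
    {T : Finset ℕ} (hpT : p ∉ T) {K K' : ℝ} (hK : 0 ≤ K)
    (hnum : ∀ (I : Finset ℕ) (x y : ℕ → ℝ), (∀ i ∈ I, 0 ≤ x i) → (∀ i ∈ I, 0 ≤ y i) →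
        ∑ i ∈ I, x i = 1 → ∑ i ∈ I, y i = 1 →
        (∑ l ∈ (I ×ˢ I).image (fun e => (e.1:ℤ) - e.2),
            (((p:ℝ) ^ (-((1/2 - η) * (1 - β)))) ^ l.natAbs * diag (1/2 + η) I I x y l) ^
              (1 / (1 - β * (1/2 - η)))) ^ (1 - β * (1/2 - η)) ≤ K' ∨
        ∃ k ∈ I, 1 + ∑ i ∈ I.erase k, ∑ j ∈ I.erase k,
            ((p:ℝ) ^ (-((1/2 - η) * (1 - β)))) ^ ((i:ℤ) - j).natAbs *
              (x i * y j) ^ (1/2 + η) ≤ K')
    (ih : Bnd η β μ ν ρ σ Λ K T) : Bnd η β μ ν ρ σ Λ (K' * K) (insert p T) := by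
  intro a M1 M2 E R hcfg hE
  set θ := 1/2 - η with hθ
  set s := 1/2 + η with hs
  set t' := θ * (1 - β) with ht'
  set b := β * θ with hb
  set δ := (p:ℝ) ^ (-t') with hδ
  set A0 := 16384 * (ρ * σ * Λ ^ 2) ^ θ * ((M1:ℝ) * M2) ^ (-t') with hA0
  have hθ0 : 0 < θ := by rw [hθ]; linarith
  have hb0 : 0 < b := mul_pos hβ hθ0
  have hb1 : b < 1 := by rw [hb, hθ]; nlinarith
  have hA : 0 ≤ A0 := by rw [hA0]; positivity
  have hδ0 : 0 ≤ δ := Real.rpow_nonneg (Nat.cast_nonneg p) _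
  have hs0 : 0 < s := by rw [hs]; linarith
  set fv : ℕ → ℕ := fun v => v.factorization p with hfv
  set V := E.image Prod.fst with hV
  set W := E.image Prod.snd with hW
  set I := V.image fv ∪ W.image fv with hI
  set m : ℕ → ℝ := fun i => ∑ v ∈ V.filter (fun v => fv v = i), μ v with hm
  set n : ℕ → ℝ := fun i => ∑ v ∈ W.filter (fun v => fv v = i), ν v with hn
  have hm0 : ∀ i, 0 ≤ m i := fun i => sum_nonneg fun v _ => hμ0 v
  have hn0 : ∀ i, 0 ≤ n i := fun i => sum_nonneg fun v _ => hν0 v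
  set m0 := mass1 μ E with hm0'
  set n0 := mass2 ν E with hn0'
  have hsm : ∑ i ∈ I, m i = m0 :=
    sum_fiberwise_of_maps_to (fun v hv => mem_union_left _ (mem_image_of_mem _ hv)) _
  have hsn : ∑ i ∈ I, n i = n0 :=
    sum_fiberwise_of_maps_to (fun v hv => mem_union_right _ (mem_image_of_mem _ hv)) _
  set H := ∑ x ∈ R, tauW x with hH
  have hH0 : 0 ≤ H := sum_nonneg fun x _ => tauW_nonneg x
  set Hl : ℤ → ℝ := fun l => ∑ x ∈ R.filter (fun x => expDiff p x = l), tauW x with hHl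
  have hHl0 : ∀ l, 0 ≤ Hl l := fun l => sum_nonneg fun x _ => tauW_nonneg x
  have hHlH : ∀ l, Hl l ≤ H := fun l =>
    sum_le_sum_of_subset_of_nonneg (filter_subset _ _) fun x _ _ => tauW_nonneg x
  have hm_n : 0 ≤ m0 * n0 := mul_nonneg (sum_nonneg fun v _ => hμ0 v) (sum_nonneg fun v _ => hν0 v)
  rw [show K' * K * (A0 * H ^ b) * (m0 * n0) ^ s = K * A0 * (H ^ b * (K' * (m0 * n0) ^ s)) by ring]
  rcases eq_or_ne (m0 * n0) 0 with h0 | h0
  · have h2 : ∑ e ∈ E, μ e.1 * ν e.2 ≤ m0 * n0 := sum_prod_le E _ _ hμ0 hν0 fun e he =>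
      ⟨mem_image_of_mem _ he, mem_image_of_mem _ he⟩
    rw [h0] at h2
    rw [h0, Real.zero_rpow hs0.ne', mul_zero, mul_zero, mul_zero]
    exact h2
  have hmpos : 0 < m0 := lt_of_le_of_ne (sum_nonneg fun v _ => hμ0 v) (Ne.symm (mul_ne_zero_iff.mp h0).1)
  have hnpos : 0 < n0 := lt_of_le_of_ne (sum_nonneg fun v _ => hν0 v) (Ne.symm (mul_ne_zero_iff.mp h0).2)
  -- children
  set Eij : ℕ → ℕ → Finset (ℕ × ℕ) :=
    fun i j => E.filter (fun e => fv e.1 = i ∧ fv e.2 = j) with hEij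
  have child : ∀ i j : ℕ, ∑ e ∈ Eij i j, μ e.1 * ν e.2 ≤
      K * A0 * (δ ^ ((i:ℤ) - j).natAbs * Hl ((i:ℤ) - j) ^ b * (m i * n j) ^ s) := by
    intro i j
    have hc : Cfg T (a * p ^ min i j) (M1 * p ^ (i - j)) (M2 * p ^ (j - i)) (Eij i j) := by
      refine cfg_child hp hpT hcfg (filter_subset _ _) _ _ _ fun e he => ?_
      obtain ⟨-, h1, h2⟩ := mem_filter.mp he
      simp only [hfv] at h1 h2
      rw [h1, h2]
      omega
    have hE' : Edges Λ (R.filter (fun x => expDiff p x = (i:ℤ) - j)) (Eij i j) := by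
      intro e he
      obtain ⟨he, h1, h2⟩ := mem_filter.mp he
      obtain ⟨a1, a2, a3, a4, a5⟩ := hE e he
      refine ⟨a1, a2, a3, a4, mem_filter.mpr ⟨a5, ?_⟩⟩
      rw [expDiff_red a1 a2, expDiff]
      simp only [hfv] at h1 h2
      rw [h1, h2]
    refine (ih _ _ _ _ _ hc hE').trans ?_
    have hmass1 : mass1 μ (Eij i j) ≤ m i := by
      refine sum_le_sum_of_subset_of_nonneg (fun v hv => ?_) fun v _ _ => hμ0 v
      obtain ⟨e, he, rfl⟩ := mem_image.mp hv
      obtain ⟨he, h1, -⟩ := mem_filter.mp he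
      exact mem_filter.mpr ⟨mem_image_of_mem _ he, h1⟩
    have hmass2 : mass2 ν (Eij i j) ≤ n j := by
      refine sum_le_sum_of_subset_of_nonneg (fun v hv => ?_) fun v _ _ => hν0 v
      obtain ⟨e, he, rfl⟩ := mem_image.mp hv
      obtain ⟨he, -, h2⟩ := mem_filter.mp he
      exact mem_filter.mpr ⟨mem_image_of_mem _ he, h2⟩
    have eM : ((M1 * p ^ (i - j) : ℕ) : ℝ) * ((M2 * p ^ (j - i) : ℕ) : ℝ) =
        (M1:ℝ) * M2 * (p:ℝ) ^ ((i:ℤ) - j).natAbs := by
      rw [show ((i:ℤ) - j).natAbs = (i - j) + (j - i) by omega, pow_add]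
      push_cast; ring
    rw [eM, Real.mul_rpow (x := (M1:ℝ) * M2) (y := (p:ℝ) ^ ((i:ℤ) - j).natAbs) (by positivity)
      (by positivity), ← Real.rpow_pow_comm (Nat.cast_nonneg p)]
    have h3 : (mass1 μ (Eij i j) * mass2 ν (Eij i j)) ^ s ≤ (m i * n j) ^ s :=
      Real.rpow_le_rpow (mul_nonneg (sum_nonneg fun v _ => hμ0 v) (sum_nonneg fun v _ => hν0 v))
        (mul_le_mul hmass1 hmass2 (sum_nonneg fun v _ => hν0 v) (hm0 i)) hs0.le
    refine (mul_le_mul_of_nonneg_left h3 ?_).trans (le_of_eq ?_)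
    · exact mul_nonneg hK (mul_nonneg (mul_nonneg (by positivity)
        (mul_nonneg (Real.rpow_nonneg (by positivity) _) (pow_nonneg hδ0 _))) (Real.rpow_nonneg (hHl0 _) _))
    · simp only [hA0, hHl, hδ, ht', hb, hθ, hs]
      ring
  -- normalised masses
  set x : ℕ → ℝ := fun i => m i / m0 with hx
  set y : ℕ → ℝ := fun i => n i / n0 with hy
  have exy : ∀ i j, (m i * n j) ^ s = (m0 * n0) ^ s * (x i * y j) ^ s := by
    intro i j
    rw [← Real.mul_rpow hm_n (mul_nonneg (div_nonneg (hm0 i) hmpos.le) (div_nonneg (hn0 j) hnpos.le))]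
    congr 1
    field_simp
  have hxnn : ∀ i ∈ I, 0 ≤ x i := fun i _ => div_nonneg (hm0 i) hmpos.le
  have hynn : ∀ i ∈ I, 0 ≤ y i := fun i _ => div_nonneg (hn0 i) hnpos.le
  have hX : ∑ i ∈ I, x i = 1 := by simp only [hx]; rw [← sum_div, hsm, div_self hmpos.ne']
  have hY : ∑ i ∈ I, y i = 1 := by simp only [hy]; rw [← sum_div, hsn, div_self hnpos.ne']
  rcases hnum I x y hxnn hynn hX hY with hA' | ⟨k, hk, hB'⟩
  · -- all children
    set L := (I ×ˢ I).image (fun e => (e.1:ℤ) - e.2) with hL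
    have hcover : ∑ e ∈ E, μ e.1 * ν e.2 ≤
        ∑ i ∈ I, ∑ j ∈ I, ∑ e ∈ Eij i j, μ e.1 * ν e.2 := by
      rw [← sum_product' (f := fun i j => ∑ e ∈ Eij i j, μ e.1 * ν e.2),
        ← sum_fiberwise_of_maps_to (s := E) (g := fun e => (fv e.1, fv e.2)) (t := I ×ˢ I)
          (fun e he => mem_product.mpr ⟨mem_union_left _ (mem_image_of_mem _ (mem_image_of_mem _ he)),
            mem_union_right _ (mem_image_of_mem _ (mem_image_of_mem _ he))⟩)]
      refine le_of_eq (sum_congr rfl fun ij _ => sum_congr (filter_congr fun e _ => ?_) fun _ _ => rfl)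
      exact Prod.ext_iff
    have hre : ∑ i ∈ I, ∑ j ∈ I, δ ^ ((i:ℤ) - j).natAbs * Hl ((i:ℤ) - j) ^ b * (m i * n j) ^ s =
        (m0 * n0) ^ s * ∑ l ∈ L, Hl l ^ b * (δ ^ l.natAbs * diag s I I x y l) := by
      simp only [diag, mul_sum, mul_ite, mul_zero]
      symm
      rw [sum_comm]
      refine sum_congr rfl fun i hi => ?_
      rw [sum_comm]
      refine sum_congr rfl fun j hj => ?_
      rw [sum_ite_eq, if_pos (mem_image.mpr ⟨(i, j), mem_product.mpr ⟨hi, hj⟩, rfl⟩), exy i j]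
      ring
    have hT0 : ∀ l ∈ L, 0 ≤ δ ^ l.natAbs * diag s I I x y l := fun l _ =>
      mul_nonneg (pow_nonneg hδ0 _) (diag_nonneg hxnn hynn l)
    have hHol := holder L (h := Hl) (T := fun l => δ ^ l.natAbs * diag s I I x y l) hb0 hb1
      (fun l _ => hHl0 l) hT0
    have hsumH : ∑ l ∈ L, Hl l ≤ H := by
      simp only [hHl]
      rw [sum_fiberwise_eq_sum_filter]
      exact sum_le_sum_of_subset_of_nonneg (filter_subset _ _) fun x _ _ => tauW_nonneg x
    calc ∑ e ∈ E, μ e.1 * ν e.2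
        ≤ ∑ i ∈ I, ∑ j ∈ I,
            K * A0 * (δ ^ ((i:ℤ) - j).natAbs * Hl ((i:ℤ) - j) ^ b * (m i * n j) ^ s) :=
          hcover.trans (sum_le_sum fun i _ => sum_le_sum fun j _ => child i j)
      _ = K * A0 * ((m0 * n0) ^ s * ∑ l ∈ L, Hl l ^ b * (δ ^ l.natAbs * diag s I I x y l)) := by
          rw [← hre]; simp only [mul_sum]
      _ ≤ K * A0 * ((m0 * n0) ^ s * (H ^ b * K')) := by
          refine mul_le_mul_of_nonneg_left (mul_le_mul_of_nonneg_left (hHol.trans ?_)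
            (Real.rpow_nonneg hm_n _)) (mul_nonneg hK hA)
          exact mul_le_mul (Real.rpow_le_rpow (sum_nonneg fun l _ => hHl0 l) hsumH hb0.le) hA'
            (Real.rpow_nonneg (sum_nonneg fun l hl => Real.rpow_nonneg (hT0 l hl) _) _)
            (Real.rpow_nonneg hH0 _)
      _ = _ := by ring
  · -- centre at `k`
    set E1 := E.filter (fun e => fv e.1 = k ∨ fv e.2 = k) with hE1
    have h1 : ∑ e ∈ E1, μ e.1 * ν e.2 ≤ K * A0 * (H ^ b * (m0 * n0) ^ s) := by
      have hc : Cfg T (a * p ^ k) (M1 * p ^ 0) (M2 * p ^ 0) E1 := by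
        refine cfg_child hp hpT hcfg (filter_subset _ _) _ _ _ fun e he => ?_
        obtain ⟨-, h⟩ := mem_filter.mp he
        simp only [hfv] at h
        omega
      refine (ih _ _ _ _ R hc fun e he => hE e (mem_filter.mp he).1).trans ?_
      have h3 : (mass1 μ E1 * mass2 ν E1) ^ s ≤ (m0 * n0) ^ s :=
        Real.rpow_le_rpow (mul_nonneg (sum_nonneg fun v _ => hμ0 v) (sum_nonneg fun v _ => hν0 v))
          (mul_le_mul
            (sum_le_sum_of_subset_of_nonneg (image_subset_image (filter_subset _ _))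
              fun v _ _ => hμ0 v)
            (sum_le_sum_of_subset_of_nonneg (image_subset_image (filter_subset _ _))
              fun v _ _ => hν0 v)
            (sum_nonneg fun v _ => hν0 v) hmpos.le) hs0.le
      refine (mul_le_mul_of_nonneg_left h3 ?_).trans (le_of_eq ?_)
      · exact mul_nonneg hK (mul_nonneg (by positivity) (Real.rpow_nonneg hH0 _))
      · simp only [hA0, pow_zero, mul_one]
        ring
    have h2 : ∑ e ∈ E.filter (fun e => ¬(fv e.1 = k ∨ fv e.2 = k)), μ e.1 * ν e.2 ≤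
        K * A0 * (H ^ b * ((m0 * n0) ^ s * ∑ i ∈ I.erase k, ∑ j ∈ I.erase k,
          δ ^ ((i:ℤ) - j).natAbs * (x i * y j) ^ s)) := by
      calc ∑ e ∈ E.filter (fun e => ¬(fv e.1 = k ∨ fv e.2 = k)), μ e.1 * ν e.2
          = ∑ i ∈ I.erase k, ∑ j ∈ I.erase k, ∑ e ∈ Eij i j, μ e.1 * ν e.2 := by
            rw [← sum_product' (f := fun i j => ∑ e ∈ Eij i j, μ e.1 * ν e.2),
              ← sum_fiberwise_of_maps_to (s := E.filter (fun e => ¬(fv e.1 = k ∨ fv e.2 = k)))
                (g := fun e => (fv e.1, fv e.2)) (t := I.erase k ×ˢ I.erase k) (fun e he => by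
                  obtain ⟨he, hk'⟩ := mem_filter.mp he
                  exact mem_product.mpr ⟨mem_erase.mpr ⟨fun h => hk' (Or.inl h),
                      mem_union_left _ (mem_image_of_mem _ (mem_image_of_mem _ he))⟩,
                    mem_erase.mpr ⟨fun h => hk' (Or.inr h),
                      mem_union_right _ (mem_image_of_mem _ (mem_image_of_mem _ he))⟩⟩)]
            refine sum_congr rfl fun ij hij => sum_congr ?_ fun _ _ => rfl
            rw [filter_filter]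
            refine filter_congr fun e _ => ⟨fun h => Prod.ext_iff.mp h.2, fun h => ?_⟩
            refine ⟨?_, Prod.ext h.1 h.2⟩
            obtain ⟨h1, h2⟩ := mem_product.mp hij
            rintro (h' | h')
            · exact ne_of_mem_erase h1 (h.1.symm.trans h')
            · exact ne_of_mem_erase h2 (h.2.symm.trans h')
        _ ≤ ∑ i ∈ I.erase k, ∑ j ∈ I.erase k,
            K * A0 * (H ^ b * ((m0 * n0) ^ s * (δ ^ ((i:ℤ) - j).natAbs * (x i * y j) ^ s))) := by
            refine sum_le_sum fun i _ => sum_le_sum fun j _ => (child i j).trans ?_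
            refine mul_le_mul_of_nonneg_left ?_ (mul_nonneg hK hA)
            rw [exy i j]
            calc δ ^ ((i:ℤ) - j).natAbs * Hl ((i:ℤ) - j) ^ b * ((m0 * n0) ^ s * (x i * y j) ^ s)
                ≤ δ ^ ((i:ℤ) - j).natAbs * H ^ b * ((m0 * n0) ^ s * (x i * y j) ^ s) := by
                  refine mul_le_mul_of_nonneg_right (mul_le_mul_of_nonneg_left
                    (Real.rpow_le_rpow (hHl0 _) (hHlH _) hb0.le) (pow_nonneg hδ0 _)) ?_
                  exact mul_nonneg (Real.rpow_nonneg hm_n _)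
                    (Real.rpow_nonneg (mul_nonneg (div_nonneg (hm0 i) hmpos.le)
                      (div_nonneg (hn0 j) hnpos.le)) _)
              _ = _ := by ring
        _ = _ := by simp only [mul_sum]
    rw [← sum_filter_add_sum_filter_not E (fun e => fv e.1 = k ∨ fv e.2 = k)]
    refine (add_le_add h1 h2).trans ?_
    calc K * A0 * (H ^ b * (m0 * n0) ^ s) + K * A0 * (H ^ b * ((m0 * n0) ^ s * ∑ i ∈ I.erase k,
          ∑ j ∈ I.erase k, δ ^ ((i:ℤ) - j).natAbs * (x i * y j) ^ s))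
        = K * A0 * (H ^ b * ((m0 * n0) ^ s * (1 + ∑ i ∈ I.erase k, ∑ j ∈ I.erase k,
          δ ^ ((i:ℤ) - j).natAbs * (x i * y j) ^ s))) := by ring
      _ ≤ K * A0 * (H ^ b * ((m0 * n0) ^ s * K')) := by
          refine mul_le_mul_of_nonneg_left (mul_le_mul_of_nonneg_left (mul_le_mul_of_nonneg_left
            hB' (Real.rpow_nonneg hm_n _)) (Real.rpow_nonneg hH0 _)) (mul_nonneg hK hA)
      _ = _ := by ring

end

/-- The bilinear gcd inequality. -/
theorem gcdIneq : GcdStmt := by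
  intro η β hη hη' hβ hβ'
  obtain ⟨c, hcs, hc0, hnum⟩ := num hη hη' hβ hβ'
  refine ⟨16384 * Real.exp (∑' p, c p), by positivity, ?_⟩
  intro V W E μ ν ρ σ Λ R hρ hσ _hΛ hsub hμ hν hE
  classical
  set μ' : ℕ → ℝ := fun v => if v ∈ V then μ v else 0 with hμ'
  set ν' : ℕ → ℝ := fun v => if v ∈ W then ν v else 0 with hν'
  have hμ0 : ∀ v, 0 ≤ μ' v := fun v => by
    simp only [hμ']; split_ifs with h
    · exact (hμ v h).1
    · exact le_rfl
  have hν0 : ∀ v, 0 ≤ ν' v := fun v => by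
    simp only [hν']; split_ifs with h
    · exact (hν v h).1
    · exact le_rfl
  have hμ1 : ∀ v, μ' v ≤ ρ * (Nat.totient v : ℝ) := fun v => by
    simp only [hμ']; split_ifs with h
    · exact (hμ v h).2
    · positivity
  have hν1 : ∀ v, ν' v ≤ σ * (Nat.totient v : ℝ) := fun v => by
    simp only [hν']; split_ifs with h
    · exact (hν v h).2
    · positivity
  have key : ∀ T : Finset ℕ, (∀ p ∈ T, p.Prime) →
      Bnd η β μ' ν' ρ σ Λ (Real.exp (∑ p ∈ T, c p)) T := by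
    intro T
    induction T using Finset.induction with
    | empty =>
      intro _ a M1 M2 E R hcfg hE
      rw [sum_empty, Real.exp_zero, one_mul]
      exact base hη hη' hβ hβ' hμ0 hν0 hμ1 hν1 hρ hσ hcfg hE
    | insert p T hpT ih =>
      intro hP
      have hp := hP p (mem_insert_self _ _)
      rw [sum_insert hpT, Real.exp_add]
      exact step hη hη' hβ hβ' hμ0 hν0 hρ hσ hp hpT (Real.exp_nonneg _) (hnum p hp.two_le)
        (ih fun q hq => hP q (mem_insert_of_mem hq))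
  set T := E.biUnion (fun e => e.1.primeFactors ∪ e.2.primeFactors) with hT
  have hTp : ∀ p ∈ T, p.Prime := by
    intro p hp
    obtain ⟨e, -, he⟩ := mem_biUnion.mp hp
    rcases mem_union.mp he with h | h <;> exact Nat.prime_of_mem_primeFactors h
  have hcfg : Cfg T 1 1 1 E := by
    refine ⟨one_pos, one_pos, one_pos, fun p _ => by simp, fun e he p hp => ?_⟩
    have h1 : e.1.factorization p = 0 := Finsupp.notMem_support_iff.mp fun h => hp
      (mem_biUnion.mpr ⟨e, he, mem_union_left _ (by rwa [Nat.support_factorization] at h)⟩)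
    have h2 : e.2.factorization p = 0 := Finsupp.notMem_support_iff.mp fun h => hp
      (mem_biUnion.mpr ⟨e, he, mem_union_right _ (by rwa [Nat.support_factorization] at h)⟩)
    simp [h1, h2]
  have main := key T hTp 1 1 1 E R hcfg hE
  simp only [Nat.cast_one, Real.one_rpow, mul_one] at main
  have hsum : ∑ e ∈ E, μ e.1 * ν e.2 = ∑ e ∈ E, μ' e.1 * ν' e.2 := by
    refine sum_congr rfl fun e he => ?_
    obtain ⟨h1, h2⟩ := mem_product.mp (hsub he)
    simp only [hμ', hν', if_pos h1, if_pos h2]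
  rw [hsum]
  refine main.trans ?_
  have h1 : mass1 μ' E ≤ ∑ v ∈ V, μ v := by
    calc mass1 μ' E ≤ ∑ v ∈ V, μ' v := sum_le_sum_of_subset_of_nonneg (fun v hv => by
          obtain ⟨e, he, rfl⟩ := mem_image.mp hv
          exact (mem_product.mp (hsub he)).1) fun v _ _ => hμ0 v
      _ = _ := sum_congr rfl fun v hv => if_pos hv
  have h2 : mass2 ν' E ≤ ∑ v ∈ W, ν v := by
    calc mass2 ν' E ≤ ∑ v ∈ W, ν' v := sum_le_sum_of_subset_of_nonneg (fun v hv => by
          obtain ⟨e, he, rfl⟩ := mem_image.mp hv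
          exact (mem_product.mp (hsub he)).2) fun v _ _ => hν0 v
      _ = _ := sum_congr rfl fun v hv => if_pos hv
  have hH : 0 ≤ (∑ x ∈ R, tauW x) ^ (β * (1/2 - η)) :=
    Real.rpow_nonneg (sum_nonneg fun x _ => tauW_nonneg x) _
  have hB : 0 ≤ (ρ * σ * Λ ^ 2) ^ (1/2 - η) := Real.rpow_nonneg (by positivity) _
  have hm : (mass1 μ' E * mass2 ν' E) ^ (1/2 + η) ≤
      ((∑ v ∈ V, μ v) * ∑ v ∈ W, ν v) ^ (1/2 + η) :=
    Real.rpow_le_rpow (mul_nonneg (sum_nonneg fun v _ => hμ0 v) (sum_nonneg fun v _ => hν0 v))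
      (mul_le_mul h1 h2 (sum_nonneg fun v _ => hν0 v) (sum_nonneg fun v hv => (hμ v hv).1))
      (by linarith)
  have he : Real.exp (∑ p ∈ T, c p) ≤ Real.exp (∑' p, c p) :=
    Real.exp_le_exp.mpr (hcs.sum_le_tsum _ fun p _ => hc0 p)
  calc Real.exp (∑ p ∈ T, c p) * (16384 * (ρ * σ * Λ ^ 2) ^ (1/2 - η) *
        (∑ x ∈ R, tauW x) ^ (β * (1/2 - η))) * (mass1 μ' E * mass2 ν' E) ^ (1/2 + η)
      ≤ Real.exp (∑' p, c p) * (16384 * (ρ * σ * Λ ^ 2) ^ (1/2 - η) *
        (∑ x ∈ R, tauW x) ^ (β * (1/2 - η))) * ((∑ v ∈ V, μ v) * ∑ v ∈ W, ν v) ^ (1/2 + η) :=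
        mul_le_mul (mul_le_mul_of_nonneg_right he (mul_nonneg (mul_nonneg (by norm_num) hB) hH)) hm
          (Real.rpow_nonneg (mul_nonneg (sum_nonneg fun v _ => hμ0 v) (sum_nonneg fun v _ => hν0 v)) _)
          (mul_nonneg (Real.exp_nonneg _) (mul_nonneg (mul_nonneg (by norm_num) hB) hH))
    _ = _ := by ring

end Vale.P028NF
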