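import Vale.Agent.P028.NF.Num

/-! # P028 near-full: configurations and the base case of the gcd inequality -/

open Finset

namespace Vale.P028NF

/-- A configuration: the exponents of the primes outside `T` are in normal form. -/
def Cfg (T : Finset ℕ) (a M1 M2 : ℕ) (E : Finset (ℕ × ℕ)) : Prop :=
  0 < a ∧ 0 < M1 ∧ 0 < M2 ∧
  (∀ p ∈ T, a.factorization p = 0 ∧ M1.factorization p = 0 ∧ M2.factorization p = 0) ∧
  ∀ e ∈ E, ∀ p, p ∉ T →
    M1.factorization p ≤ e.1.factorization p ∧ M2.factorization p ≤ e.2.factorization p ∧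
    max (e.1.factorization p) (e.2.factorization p) =
      a.factorization p + M1.factorization p + M2.factorization p +
        (e.1.factorization p - M1.factorization p - a.factorization p) +
        (e.2.factorization p - M2.factorization p - a.factorization p)

/-- The hypotheses on the edges. -/
def Edges (Λ : ℝ) (R : Finset (ℕ × ℕ)) (E : Finset (ℕ × ℕ)) : Prop :=
  ∀ e ∈ E, 0 < e.1 ∧ 0 < e.2 ∧ Λ ≤ (Nat.lcm e.1 e.2 : ℝ) ∧ (Nat.lcm e.1 e.2 : ℝ) < 4 * Λ ∧
    red e ∈ R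

theorem tauW_nonneg (x : ℕ × ℕ) : 0 ≤ tauW x := by unfold tauW; positivity

theorem totient_mul_le (a b : ℕ) : Nat.totient (a * b) ≤ Nat.totient a * b := by
  rcases Nat.eq_zero_or_pos a with rfl | ha
  · simp
  rw [Nat.totient_eq_card_coprime, Nat.totient_eq_card_coprime]
  have h : ((range a).filter (fun x => Nat.Coprime a x) ×ˢ range b).card =
      ((range a).filter (fun x => Nat.Coprime a x)).card * b := by
    rw [card_product, card_range]
  rw [← h]
  refine card_le_card_of_injOn (fun n => (n % a, n / a)) (fun n hn => ?_) (fun x _ y _ he => ?_)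
  · simp only [coe_filter, Set.mem_setOf_eq, mem_range] at hn
    simp only [coe_product, Set.mem_prod, coe_filter, Set.mem_setOf_eq, mem_range, coe_range,
      Set.mem_Iio]
    refine ⟨⟨Nat.mod_lt _ ha, ?_⟩, (Nat.div_lt_iff_lt_mul ha).mpr (by linarith [hn.1, mul_comm a b])⟩
    have h1 : Nat.Coprime a n := Nat.Coprime.coprime_dvd_left (dvd_mul_right a b) hn.2
    rw [Nat.Coprime, Nat.gcd_comm, ← Nat.gcd_rec]
    exact h1
  · simp only [Prod.mk.injEq] at he
    rw [← Nat.mod_add_div x a, ← Nat.mod_add_div y a, he.1, he.2]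

/-- A relation of bounded degree. -/
theorem degree_le {α β : Type*} [DecidableEq α] [DecidableEq β] {s : ℝ} (hs : 1/2 ≤ s) (N : ℕ)
    (P : Finset (α × β)) {x : α → ℝ} {y : β → ℝ} (hx : ∀ i, 0 ≤ x i) (hy : ∀ j, 0 ≤ y j)
    (hd1 : ∀ i, (P.filter (fun e => e.1 = i)).card ≤ N)
    (hd2 : ∀ j, (P.filter (fun e => e.2 = j)).card ≤ N) :
    ∑ e ∈ P, (x e.1 * y e.2) ^ s ≤
      N * ((∑ i ∈ P.image Prod.fst, x i) * (∑ j ∈ P.image Prod.snd, y j)) ^ s := by
  set X := ∑ i ∈ P.image Prod.fst, x i with hX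
  set Y := ∑ j ∈ P.image Prod.snd, y j with hY
  have hX0 : 0 ≤ X := sum_nonneg fun i _ => hx i
  have hY0 : 0 ≤ Y := sum_nonneg fun j _ => hy j
  have hs0 : s ≠ 0 := by linarith
  have hxi : ∀ e ∈ P, x e.1 ≤ X := fun e he =>
    single_le_sum (fun i _ => hx i) (mem_image_of_mem _ he)
  have hyi : ∀ e ∈ P, y e.2 ≤ Y := fun e he =>
    single_le_sum (fun i _ => hy i) (mem_image_of_mem _ he)
  rcases eq_or_ne (X * Y) 0 with h0 | h0
  · rw [h0, Real.zero_rpow hs0, mul_zero]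
    refine le_of_eq (sum_eq_zero fun e he => ?_)
    have : x e.1 * y e.2 = 0 := le_antisymm
      (h0 ▸ mul_le_mul (hxi e he) (hyi e he) (hy _) hX0) (mul_nonneg (hx _) (hy _))
    rw [this, Real.zero_rpow hs0]
  · have hXp : 0 < X := lt_of_le_of_ne hX0 (Ne.symm (mul_ne_zero_iff.mp h0).1)
    have hYp : 0 < Y := lt_of_le_of_ne hY0 (Ne.symm (mul_ne_zero_iff.mp h0).2)
    have hb : ∀ e ∈ P, (x e.1 * y e.2) ^ s ≤ (X * Y) ^ s * ((x e.1 / X + y e.2 / Y) / 2) := by
      intro e he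
      have hu : 0 ≤ x e.1 / X := div_nonneg (hx _) hX0
      have hv : 0 ≤ y e.2 / Y := div_nonneg (hy _) hY0
      rw [show x e.1 * y e.2 = X * Y * (x e.1 / X * (y e.2 / Y)) by field_simp,
        Real.mul_rpow (mul_nonneg hX0 hY0) (mul_nonneg hu hv)]
      refine mul_le_mul_of_nonneg_left ?_ (Real.rpow_nonneg (mul_nonneg hX0 hY0) _)
      exact mul_rpow_le_half hs hu ((div_le_one hXp).mpr (hxi e he)) hv
        ((div_le_one hYp).mpr (hyi e he))
    refine (sum_le_sum hb).trans ?_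
    rw [← mul_sum, mul_comm (N:ℝ)]
    refine mul_le_mul_of_nonneg_left ?_ (Real.rpow_nonneg (mul_nonneg hX0 hY0) _)
    rw [← sum_div, sum_add_distrib]
    have h1 : ∑ e ∈ P, x e.1 / X ≤ N := by
      rw [← sum_fiberwise_of_maps_to (g := Prod.fst) (t := P.image Prod.fst)
        (fun e he => mem_image_of_mem _ he)]
      calc ∑ i ∈ P.image Prod.fst, ∑ e ∈ P.filter (fun e => e.1 = i), x e.1 / X
          ≤ ∑ i ∈ P.image Prod.fst, (N:ℝ) * (x i / X) := sum_le_sum fun i _ => by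
            rw [sum_congr rfl (fun e he => by rw [(mem_filter.mp he).2]), sum_const, nsmul_eq_mul]
            exact mul_le_mul_of_nonneg_right (Nat.cast_le.mpr (hd1 i)) (div_nonneg (hx i) hX0)
        _ = N := by rw [← mul_sum, ← sum_div, ← hX, div_self hXp.ne', mul_one]
    have h2 : ∑ e ∈ P, y e.2 / Y ≤ N := by
      rw [← sum_fiberwise_of_maps_to (g := Prod.snd) (t := P.image Prod.snd)
        (fun e he => mem_image_of_mem _ he)]
      calc ∑ i ∈ P.image Prod.snd, ∑ e ∈ P.filter (fun e => e.2 = i), y e.2 / Y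
          ≤ ∑ i ∈ P.image Prod.snd, (N:ℝ) * (y i / Y) := sum_le_sum fun i _ => by
            rw [sum_congr rfl (fun e he => by rw [(mem_filter.mp he).2]), sum_const, nsmul_eq_mul]
            exact mul_le_mul_of_nonneg_right (Nat.cast_le.mpr (hd2 i)) (div_nonneg (hy i) hY0)
        _ = N := by rw [← mul_sum, ← sum_div, ← hY, div_self hYp.ne', mul_one]
    linarith

/-- `gcd (v / M, a)` -/
def dpart (a M v : ℕ) : ℕ := Nat.gcd (v / M) a

/-- the cofactor -/
def upart (a M v : ℕ) : ℕ := v / M / dpart a M v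

theorem base_edge {a M1 M2 v w : ℕ} (ha : 0 < a) (hM1 : 0 < M1) (hM2 : 0 < M2) (hv : 0 < v)
    (hw : 0 < w)
    (h : ∀ p, M1.factorization p ≤ v.factorization p ∧ M2.factorization p ≤ w.factorization p ∧
      max (v.factorization p) (w.factorization p) =
        a.factorization p + M1.factorization p + M2.factorization p +
        (v.factorization p - M1.factorization p - a.factorization p) +
        (w.factorization p - M2.factorization p - a.factorization p)) :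
    v = M1 * dpart a M1 v * upart a M1 v ∧ w = M2 * dpart a M2 w * upart a M2 w ∧
      dpart a M1 v ∣ a ∧ dpart a M2 w ∣ a ∧
      dpart a M1 v * dpart a M2 w = a * Nat.gcd v w ∧
      0 < upart a M1 v ∧ 0 < upart a M2 w ∧
      Nat.lcm v w = a * M1 * M2 * (upart a M1 v * upart a M2 w) := by
  have d1 : M1 ∣ v := (Nat.factorization_le_iff_dvd hM1.ne' hv.ne').mp fun p => (h p).1
  have d2 : M2 ∣ w := (Nat.factorization_le_iff_dvd hM2.ne' hw.ne').mp fun p => (h p).2.1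
  have hv1 : 0 < v / M1 := Nat.div_pos (Nat.le_of_dvd hv d1) hM1
  have hw1 : 0 < w / M2 := Nat.div_pos (Nat.le_of_dvd hw d2) hM2
  have e1 : v = M1 * dpart a M1 v * upart a M1 v := by
    rw [mul_assoc, upart, Nat.mul_div_cancel' (show dpart a M1 v ∣ v / M1 from Nat.gcd_dvd_left _ _),
      Nat.mul_div_cancel' d1]
  have e2 : w = M2 * dpart a M2 w * upart a M2 w := by
    rw [mul_assoc, upart, Nat.mul_div_cancel' (show dpart a M2 w ∣ w / M2 from Nat.gcd_dvd_left _ _),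
      Nat.mul_div_cancel' d2]
  have hD : dpart a M1 v * dpart a M2 w = a * Nat.gcd v w := by
    have p1 : 0 < dpart a M1 v := Nat.gcd_pos_of_pos_left _ hv1
    have p2 : 0 < dpart a M2 w := Nat.gcd_pos_of_pos_left _ hw1
    have p3 : 0 < Nat.gcd v w := Nat.gcd_pos_of_pos_left _ hv
    refine Nat.eq_of_factorization_eq (mul_pos p1 p2).ne' (mul_pos ha p3).ne' fun p => ?_
    rw [Nat.factorization_mul p1.ne' p2.ne', Nat.factorization_mul ha.ne' p3.ne', dpart, dpart,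
      Nat.factorization_gcd hv1.ne' ha.ne', Nat.factorization_gcd hw1.ne' ha.ne',
      Nat.factorization_gcd hv.ne' hw.ne', Nat.factorization_div d1, Nat.factorization_div d2]
    simp only [Finsupp.add_apply, Finsupp.inf_apply, Finsupp.tsub_apply]
    obtain ⟨h1, h2, h3⟩ := h p
    omega
  have u1 : 0 < upart a M1 v := by
    rcases Nat.eq_zero_or_pos (upart a M1 v) with h0 | h0
    · rw [h0, mul_zero] at e1; omega
    · exact h0
  have u2 : 0 < upart a M2 w := by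
    rcases Nat.eq_zero_or_pos (upart a M2 w) with h0 | h0
    · rw [h0, mul_zero] at e2; omega
    · exact h0
  refine ⟨e1, e2, Nat.gcd_dvd_right _ _, Nat.gcd_dvd_right _ _, hD, u1, u2, ?_⟩
  refine Nat.eq_of_mul_eq_mul_left (Nat.gcd_pos_of_pos_left w hv) ?_
  rw [Nat.gcd_mul_lcm]
  calc v * w = (M1 * dpart a M1 v * upart a M1 v) * (M2 * dpart a M2 w * upart a M2 w) := by
        rw [← e1, ← e2]
    _ = (dpart a M1 v * dpart a M2 w) * (M1 * M2 * (upart a M1 v * upart a M2 w)) := by ring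
    _ = _ := by rw [hD]; ring

/-- the vertices with a given value of `(dpart, log upart)` -/
theorem class_mass_le {μ : ℕ → ℝ} {ρ : ℝ} (hρ : 0 ≤ ρ) (hμ : ∀ v, μ v ≤ ρ * (Nat.totient v : ℝ))
    (a M d k : ℕ) (V : Finset ℕ)
    (hV : ∀ v ∈ V, v = M * d * upart a M v ∧ Nat.log 2 (upart a M v) = k) :
    ∑ v ∈ V, μ v ≤ ρ * ((M:ℝ) * Nat.totient d) * 4 ^ (k + 1) := by
  have h1 : ∀ v ∈ V, μ v ≤ ρ * ((M:ℝ) * Nat.totient d * upart a M v) := by
    intro v hv
    refine (hμ v).trans (mul_le_mul_of_nonneg_left ?_ hρ)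
    have h2 : Nat.totient v ≤ M * Nat.totient d * upart a M v :=
      calc Nat.totient v = Nat.totient (d * M * upart a M v) := by
            congr 1; rw [mul_comm d M]; exact (hV v hv).1
        _ ≤ Nat.totient (d * M) * upart a M v := totient_mul_le _ _
        _ ≤ M * Nat.totient d * upart a M v :=
            Nat.mul_le_mul_right _ ((totient_mul_le d M).trans (le_of_eq (mul_comm _ _)))
    exact_mod_cast h2
  refine (sum_le_sum h1).trans ?_
  rw [← mul_sum, ← mul_sum, mul_assoc ρ]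
  refine mul_le_mul_of_nonneg_left (mul_le_mul_of_nonneg_left ?_ (by positivity)) hρ
  calc ∑ v ∈ V, (upart a M v : ℝ)
      = ∑ u ∈ V.image (upart a M), (u:ℝ) := by
        rw [sum_image (fun x hx y hy he => by
          rw [(hV x hx).1, (hV y hy).1, he])]
    _ ≤ ∑ u ∈ V.image (upart a M), (2:ℝ) ^ (k + 1) := by
        refine sum_le_sum fun u hu => ?_
        obtain ⟨v, hv, rfl⟩ := mem_image.mp hu
        have := Nat.lt_pow_succ_log_self one_lt_two (upart a M v)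
        rw [(hV v hv).2] at this
        exact_mod_cast this.le
    _ ≤ _ := by
        rw [sum_const, nsmul_eq_mul, show (4:ℝ) ^ (k+1) = 2 ^ (k+1) * 2 ^ (k+1) by
          rw [← mul_pow]; norm_num]
        refine mul_le_mul_of_nonneg_right ?_ (by positivity)
        have hsub : V.image (upart a M) ⊆ range (2 ^ (k + 1)) := by
          intro u hu
          obtain ⟨v, hv, rfl⟩ := mem_image.mp hu
          have := Nat.lt_pow_succ_log_self one_lt_two (upart a M v)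
          rw [(hV v hv).2] at this
          exact mem_range.mpr this
        have h3 := card_le_card hsub
        rw [card_range] at h3
        exact_mod_cast h3

/-- sums of products over a set of pairs -/
theorem sum_prod_le (E : Finset (ℕ × ℕ)) (V W : Finset ℕ) {μ ν : ℕ → ℝ} (hμ : ∀ v, 0 ≤ μ v)
    (hν : ∀ v, 0 ≤ ν v) (h : ∀ e ∈ E, e.1 ∈ V ∧ e.2 ∈ W) :
    ∑ e ∈ E, μ e.1 * ν e.2 ≤ (∑ v ∈ V, μ v) * ∑ v ∈ W, ν v := by
  rw [sum_mul_sum, ← sum_product' (f := fun v w => μ v * ν w)]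
  exact sum_le_sum_of_subset_of_nonneg (fun e he => mem_product.mpr (h e he))
    fun e _ _ => mul_nonneg (hμ _) (hν _)

/-- total weight of the first / second coordinates -/
noncomputable def mass1 (μ : ℕ → ℝ) (E : Finset (ℕ × ℕ)) : ℝ := ∑ v ∈ E.image Prod.fst, μ v
/-- total weight of the second coordinates -/
noncomputable def mass2 (μ : ℕ → ℝ) (E : Finset (ℕ × ℕ)) : ℝ := ∑ v ∈ E.image Prod.snd, μ v

theorem min_rpow_le {x A P θ s : ℝ} (hx : 0 ≤ x) (hθ : 0 ≤ θ) (hs : 0 ≤ s) (hsum : θ + s = 1)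
    (hA : x ≤ A) (hP : x ≤ P) : x ≤ A ^ θ * P ^ s := by
  calc x = x ^ θ * x ^ s := by rw [← Real.rpow_add' hx (by linarith), hsum, Real.rpow_one]
    _ ≤ _ := mul_le_mul (Real.rpow_le_rpow hx hA hθ) (Real.rpow_le_rpow hx hP hs)
        (Real.rpow_nonneg hx _) (Real.rpow_nonneg (hx.trans hA) _)

section
variable {η : ℝ} {μ ν : ℕ → ℝ} {ρ σ Λ : ℝ} {a M1 M2 : ℕ} {E R : Finset (ℕ × ℕ)}

theorem base_hit (hμ0 : ∀ v, 0 ≤ μ v) (hν0 : ∀ v, 0 ≤ ν v)
    (hμ : ∀ v, μ v ≤ ρ * (Nat.totient v : ℝ)) (hν : ∀ v, ν v ≤ σ * (Nat.totient v : ℝ))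
    (hρ : 0 ≤ ρ) (hσ : 0 ≤ σ) (hcfg : Cfg ∅ a M1 M2 E) (hE : Edges Λ R E) :
    ∑ e ∈ E, μ e.1 * ν e.2 ≤ 16 * (ρ * σ * Λ ^ 2) * ∑ x ∈ R, tauW x := by
  obtain ⟨ha, hM1, hM2, -, hc⟩ := hcfg
  have hq : ∀ e ∈ E, μ e.1 * ν e.2 ≤
      16 * (ρ * σ * Λ ^ 2) * (1 / (((red e).1 : ℝ) * (red e).2)) := by
    intro e he
    obtain ⟨hv, hw, -, h4, -⟩ := hE e he
    have hg : 0 < Nat.gcd e.1 e.2 := Nat.gcd_pos_of_pos_left _ hv
    have hf1 : ((red e).1 : ℝ) * (Nat.gcd e.1 e.2 : ℝ) = e.1 := by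
      exact_mod_cast Nat.div_mul_cancel (Nat.gcd_dvd_left e.1 e.2)
    have hf2 : ((red e).2 : ℝ) * (Nat.gcd e.1 e.2 : ℝ) = e.2 := by
      exact_mod_cast Nat.div_mul_cancel (Nat.gcd_dvd_right e.1 e.2)
    have hl : (Nat.gcd e.1 e.2 : ℝ) * (Nat.lcm e.1 e.2 : ℝ) = (e.1:ℝ) * e.2 := by
      exact_mod_cast Nat.gcd_mul_lcm e.1 e.2
    have hgR : (0:ℝ) < Nat.gcd e.1 e.2 := by exact_mod_cast hg
    have hvR : (0:ℝ) < e.1 := by exact_mod_cast hv
    have hwR : (0:ℝ) < e.2 := by exact_mod_cast hw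
    have hr : 0 < ((red e).1 : ℝ) * (red e).2 := by
      have a1 : (0:ℝ) < (red e).1 := pos_of_mul_pos_left (hf1 ▸ hvR) hgR.le
      have a2 : (0:ℝ) < (red e).2 := pos_of_mul_pos_left (hf2 ▸ hwR) hgR.le
      positivity
    have hkey : (e.1:ℝ) * e.2 * (((red e).1 : ℝ) * (red e).2) = (Nat.lcm e.1 e.2 : ℝ) ^ 2 := by
      refine mul_left_cancel₀ (pow_ne_zero 2 hgR.ne') ?_
      calc (Nat.gcd e.1 e.2 : ℝ) ^ 2 * ((e.1:ℝ) * e.2 * (((red e).1 : ℝ) * (red e).2))
          = (e.1:ℝ) * e.2 * ((((red e).1 : ℝ) * Nat.gcd e.1 e.2) * (((red e).2 : ℝ) * Nat.gcd e.1 e.2)) := by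
            ring
        _ = ((e.1:ℝ) * e.2) ^ 2 := by rw [hf1, hf2]; ring
        _ = _ := by rw [← hl]; ring
    have hφ : ∀ n : ℕ, (Nat.totient n : ℝ) ≤ n := fun n => by exact_mod_cast Nat.totient_le n
    have hΛ : (Nat.lcm e.1 e.2 : ℝ) ^ 2 ≤ (4 * Λ) ^ 2 := pow_le_pow_left₀ (Nat.cast_nonneg _) h4.le 2
    rw [mul_one_div, le_div_iff₀ hr]
    calc μ e.1 * ν e.2 * (((red e).1 : ℝ) * (red e).2)
        ≤ (ρ * e.1) * (σ * e.2) * (((red e).1 : ℝ) * (red e).2) := by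
          refine mul_le_mul_of_nonneg_right ?_ hr.le
          exact mul_le_mul ((hμ _).trans (mul_le_mul_of_nonneg_left (hφ _) hρ))
            ((hν _).trans (mul_le_mul_of_nonneg_left (hφ _) hσ)) (hν0 _) (by positivity)
      _ = ρ * σ * (Nat.lcm e.1 e.2 : ℝ) ^ 2 := by rw [← hkey]; ring
      _ ≤ ρ * σ * (4 * Λ) ^ 2 := mul_le_mul_of_nonneg_left hΛ (by positivity)
      _ = _ := by ring
  refine (sum_le_sum hq).trans ?_
  rw [← mul_sum]
  refine mul_le_mul_of_nonneg_left ?_ (by positivity)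
  rw [← sum_fiberwise_of_maps_to (g := red) (t := R) (fun e he => (hE e he).2.2.2.2)]
  refine sum_le_sum fun x _ => ?_
  rw [sum_congr rfl (fun e he => by rw [(mem_filter.mp he).2]), sum_const, nsmul_eq_mul, tauW,
    mul_one_div]
  refine div_le_div_of_nonneg_right ?_ (by positivity)
  have hcard : (E.filter (fun e => red e = x)).card ≤ (x.1.divisors ×ˢ x.2.divisors).card := by
    have fac : ∀ e ∈ E.filter (fun e => red e = x),
        dpart a M1 e.1 ∣ a ∧ dpart a M2 e.2 ∣ a ∧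
        dpart a M1 e.1 * dpart a M2 e.2 = a * Nat.gcd e.1 e.2 ∧
        e.1 = x.1 * Nat.gcd e.1 e.2 ∧ e.2 = x.2 * Nat.gcd e.1 e.2 ∧
        x.1 * dpart a M2 e.2 = a * (M1 * upart a M1 e.1) ∧
        x.2 * dpart a M1 e.1 = a * (M2 * upart a M2 e.2) ∧ 0 < x.1 ∧ 0 < x.2 ∧
        0 < dpart a M1 e.1 ∧ 0 < dpart a M2 e.2 := by
      intro e he
      obtain ⟨he, hx⟩ := mem_filter.mp he
      obtain ⟨hv, hw, -, -, -⟩ := hE e he
      obtain ⟨e1, e2, dd1, dd2, hD, u1, u2, -⟩ :=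
        base_edge ha hM1 hM2 hv hw (fun p => hc e he p (notMem_empty p))
      have g1 : e.1 = x.1 * Nat.gcd e.1 e.2 := by
        rw [← hx]; exact (Nat.div_mul_cancel (Nat.gcd_dvd_left e.1 e.2)).symm
      have g2 : e.2 = x.2 * Nat.gcd e.1 e.2 := by
        rw [← hx]; exact (Nat.div_mul_cancel (Nat.gcd_dvd_right e.1 e.2)).symm
      have p1 : 0 < dpart a M1 e.1 := Nat.pos_of_dvd_of_pos dd1 ha
      have p2 : 0 < dpart a M2 e.2 := Nat.pos_of_dvd_of_pos dd2 ha
      refine ⟨dd1, dd2, hD, g1, g2, ?_, ?_, ?_, ?_, p1, p2⟩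
      · refine Nat.eq_of_mul_eq_mul_left p1 ?_
        calc dpart a M1 e.1 * (x.1 * dpart a M2 e.2)
            = a * (x.1 * Nat.gcd e.1 e.2) := by rw [mul_left_comm, hD]; ring
          _ = a * (M1 * dpart a M1 e.1 * upart a M1 e.1) := by rw [← g1, ← e1]
          _ = _ := by ring
      · refine Nat.eq_of_mul_eq_mul_left p2 ?_
        calc dpart a M2 e.2 * (x.2 * dpart a M1 e.1)
            = x.2 * (dpart a M1 e.1 * dpart a M2 e.2) := by ring
          _ = a * (x.2 * Nat.gcd e.1 e.2) := by rw [hD]; ring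
          _ = a * (M2 * dpart a M2 e.2 * upart a M2 e.2) := by rw [← g2, ← e2]
          _ = _ := by ring
      · exact Nat.pos_of_ne_zero fun h => by rw [h, zero_mul] at g1; omega
      · exact Nat.pos_of_ne_zero fun h => by rw [h, zero_mul] at g2; omega
    refine card_le_card_of_injOn (fun e => (a / dpart a M2 e.2, a / dpart a M1 e.1))
      (fun e he => ?_) (fun e he e' he' h => ?_)
    · obtain ⟨dd1, dd2, -, -, -, x1, x2, hx1, hx2, p1, p2⟩ := fac e he
      simp only [coe_product, Set.mem_prod, mem_coe, Nat.mem_divisors]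
      refine ⟨⟨?_, hx1.ne'⟩, ?_, hx2.ne'⟩
      · refine ⟨M1 * upart a M1 e.1, Nat.eq_of_mul_eq_mul_right p2 ?_⟩
        rw [x1, mul_right_comm, Nat.div_mul_cancel dd2]
      · refine ⟨M2 * upart a M2 e.2, Nat.eq_of_mul_eq_mul_right p1 ?_⟩
        rw [x2, mul_right_comm, Nat.div_mul_cancel dd1]
    · obtain ⟨dd1, dd2, hD, g1, g2, -, -, -, -, -, -⟩ := fac e he
      obtain ⟨dd1', dd2', hD', g1', g2', -, -, -, -, -, -⟩ := fac e' he'
      simp only [Prod.mk.injEq] at h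
      have k2 : dpart a M2 e.2 = dpart a M2 e'.2 := by
        rw [← Nat.div_div_self dd2 ha.ne', ← Nat.div_div_self dd2' ha.ne', h.1]
      have k1 : dpart a M1 e.1 = dpart a M1 e'.1 := by
        rw [← Nat.div_div_self dd1 ha.ne', ← Nat.div_div_self dd1' ha.ne', h.2]
      have kg : Nat.gcd e.1 e.2 = Nat.gcd e'.1 e'.2 :=
        Nat.eq_of_mul_eq_mul_left ha (by rw [← hD, ← hD', k1, k2])
      exact Prod.ext (by rw [g1, g1', kg]) (by rw [g2, g2', kg])
  rw [card_product] at hcard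
  exact_mod_cast hcard

theorem base_size (hη : 0 < η) (hη' : η ≤ 1/4) (hμ0 : ∀ v, 0 ≤ μ v) (hν0 : ∀ v, 0 ≤ ν v)
    (hμ : ∀ v, μ v ≤ ρ * (Nat.totient v : ℝ)) (hν : ∀ v, ν v ≤ σ * (Nat.totient v : ℝ))
    (hρ : 0 ≤ ρ) (hσ : 0 ≤ σ) (hcfg : Cfg ∅ a M1 M2 E) (hE : Edges Λ R E) :
    ∑ e ∈ E, μ e.1 * ν e.2 ≤ 4 * (256 * (ρ * σ * Λ ^ 2) / ((M1:ℝ) * M2)) ^ (1/2 - η) *
      (mass1 μ E * mass2 ν E) ^ (1/2 + η) := by
  obtain ⟨ha, hM1, hM2, -, hc⟩ := hcfg
  set θ := 1/2 - η with hθ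
  set s := 1/2 + η with hs
  have hθ0 : 0 < θ := by rw [hθ]; linarith
  set K1 : ℕ → ℕ × ℕ := fun v => (dpart a M1 v, Nat.log 2 (upart a M1 v)) with hK1
  set K2 : ℕ → ℕ × ℕ := fun w => (dpart a M2 w, Nat.log 2 (upart a M2 w)) with hK2
  set V := E.image Prod.fst with hV
  set W := E.image Prod.snd with hW
  set m : ℕ × ℕ → ℝ := fun K => ∑ v ∈ V.filter (fun v => K1 v = K), μ v with hm
  set n : ℕ × ℕ → ℝ := fun K => ∑ v ∈ W.filter (fun v => K2 v = K), ν v with hn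
  have hm0 : ∀ K, 0 ≤ m K := fun K => sum_nonneg fun v _ => hμ0 v
  have hn0 : ∀ K, 0 ≤ n K := fun K => sum_nonneg fun v _ => hν0 v
  set Ks := E.image (fun e => (K1 e.1, K2 e.2)) with hKs
  set c : ℝ := (a:ℝ) * M1 * M2 with hcdef
  have haR : (0:ℝ) < a := by exact_mod_cast ha
  have hM1R : (0:ℝ) < M1 := by exact_mod_cast hM1
  have hM2R : (0:ℝ) < M2 := by exact_mod_cast hM2
  have hc0 : 0 < c := by positivity
  -- per class
  set X : ℕ × ℕ → ℝ := fun d => 256 * (ρ * σ * Λ ^ 2) / ((M1:ℝ) * M2) *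
    ((Nat.totient d.1 : ℝ) * Nat.totient d.2 / (a:ℝ) ^ 2) with hX
  have hX0 : ∀ d, 0 ≤ X d := fun d => by rw [hX]; positivity
  have hmem : ∀ K ∈ Ks, (K.1.1, K.2.1) ∈ a.divisors ×ˢ a.divisors ∧
      c * 2 ^ (K.1.2 + K.2.2) < 4 * Λ ∧ Λ < c * 2 ^ (K.1.2 + K.2.2 + 2) := by
    intro K hK
    obtain ⟨e, he, rfl⟩ := mem_image.mp hK
    obtain ⟨hv, hw, hL1, hL2, -⟩ := hE e he
    obtain ⟨-, -, dd1, dd2, -, u1, u2, hlcm⟩ :=
      base_edge ha hM1 hM2 hv hw (fun p => hc e he p (notMem_empty p))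
    refine ⟨mem_product.mpr ⟨Nat.mem_divisors.mpr ⟨dd1, ha.ne'⟩, Nat.mem_divisors.mpr ⟨dd2, ha.ne'⟩⟩,
      ?_, ?_⟩
    · refine lt_of_le_of_lt ?_ hL2
      rw [hlcm]; push_cast
      refine mul_le_mul_of_nonneg_left ?_ hc0.le
      rw [pow_add]
      have a1 : (2:ℝ) ^ Nat.log 2 (upart a M1 e.1) ≤ upart a M1 e.1 := by
        exact_mod_cast Nat.pow_log_le_self 2 u1.ne'
      have a2 : (2:ℝ) ^ Nat.log 2 (upart a M2 e.2) ≤ upart a M2 e.2 := by
        exact_mod_cast Nat.pow_log_le_self 2 u2.ne'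
      exact mul_le_mul a1 a2 (by positivity) (Nat.cast_nonneg _)
    · refine lt_of_le_of_lt hL1 ?_
      rw [hlcm]; push_cast
      refine mul_lt_mul_of_pos_left ?_ hc0
      have a1 : (upart a M1 e.1 : ℝ) < 2 ^ (Nat.log 2 (upart a M1 e.1) + 1) := by
        exact_mod_cast Nat.lt_pow_succ_log_self one_lt_two _
      have a2 : (upart a M2 e.2 : ℝ) < 2 ^ (Nat.log 2 (upart a M2 e.2) + 1) := by
        exact_mod_cast Nat.lt_pow_succ_log_self one_lt_two _
      calc (upart a M1 e.1 : ℝ) * upart a M2 e.2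
          < 2 ^ (Nat.log 2 (upart a M1 e.1) + 1) * 2 ^ (Nat.log 2 (upart a M2 e.2) + 1) :=
            mul_lt_mul'' a1 a2 (Nat.cast_nonneg _) (Nat.cast_nonneg _)
        _ = _ := by rw [← pow_add]; congr 1; simp only [hK1, hK2]; omega
  have hclass : ∀ K ∈ Ks, m K.1 * n K.2 ≤ X (K.1.1, K.2.1) := by
    intro K hK
    have h1 : m K.1 ≤ ρ * ((M1:ℝ) * Nat.totient K.1.1) * 4 ^ (K.1.2 + 1) := by
      refine class_mass_le hρ hμ a M1 _ _ _ fun v hv => ?_
      obtain ⟨hvV, hvK⟩ := mem_filter.mp hv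
      obtain ⟨e, he, rfl⟩ := mem_image.mp hvV
      obtain ⟨hv', hw', -, -, -⟩ := hE e he
      obtain ⟨e1, -⟩ := base_edge ha hM1 hM2 hv' hw' (fun p => hc e he p (notMem_empty p))
      rw [← hvK]
      exact ⟨e1, rfl⟩
    have h2 : n K.2 ≤ σ * ((M2:ℝ) * Nat.totient K.2.1) * 4 ^ (K.2.2 + 1) := by
      refine class_mass_le hσ hν a M2 _ _ _ fun v hv => ?_
      obtain ⟨hvV, hvK⟩ := mem_filter.mp hv
      obtain ⟨e, he, rfl⟩ := mem_image.mp hvV
      obtain ⟨hv', hw', -, -, -⟩ := hE e he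
      obtain ⟨-, e2, -⟩ := base_edge ha hM1 hM2 hv' hw' (fun p => hc e he p (notMem_empty p))
      rw [← hvK]
      exact ⟨e2, rfl⟩
    obtain ⟨-, h3, -⟩ := hmem K hK
    have h5 : (c * 2 ^ (K.1.2 + K.2.2)) ^ 2 ≤ (4 * Λ) ^ 2 := pow_le_pow_left₀ (by positivity) h3.le 2
    refine (mul_le_mul h1 h2 (hn0 _) (by positivity)).trans ?_
    calc ρ * ((M1:ℝ) * Nat.totient K.1.1) * 4 ^ (K.1.2 + 1) *
          (σ * ((M2:ℝ) * Nat.totient K.2.1) * 4 ^ (K.2.2 + 1))
        = 16 * (ρ * σ * ((M1:ℝ) * M2) * (Nat.totient K.1.1 * Nat.totient K.2.1) / c ^ 2) *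
            (c * 2 ^ (K.1.2 + K.2.2)) ^ 2 := by
          rw [show (4:ℝ) = 2 ^ 2 by norm_num]
          field_simp
          rw [← pow_mul, ← pow_mul]
          ring
      _ ≤ 16 * (ρ * σ * ((M1:ℝ) * M2) * (Nat.totient K.1.1 * Nat.totient K.2.1) / c ^ 2) *
            (4 * Λ) ^ 2 := mul_le_mul_of_nonneg_left h5 (by positivity)
      _ = _ := by simp only [hX, hcdef]; field_simp; ring
  -- edges to classes
  have step1 : ∑ e ∈ E, μ e.1 * ν e.2 ≤ ∑ K ∈ Ks, m K.1 * n K.2 := by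
    rw [← sum_fiberwise_of_maps_to (g := fun e => (K1 e.1, K2 e.2)) (t := Ks)
      (fun e he => mem_image_of_mem _ he)]
    refine sum_le_sum fun K _ => sum_prod_le _ _ _ hμ0 hν0 fun e he => ?_
    obtain ⟨he, hK⟩ := mem_filter.mp he
    exact ⟨mem_filter.mpr ⟨mem_image_of_mem _ he, (Prod.ext_iff.mp hK).1⟩,
      mem_filter.mpr ⟨mem_image_of_mem _ he, (Prod.ext_iff.mp hK).2⟩⟩
  have step2 : ∑ K ∈ Ks, m K.1 * n K.2 ≤ ∑ K ∈ Ks, X (K.1.1, K.2.1) ^ θ * (m K.1 * n K.2) ^ s :=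
    sum_le_sum fun K hK => min_rpow_le (mul_nonneg (hm0 _) (hn0 _)) hθ0.le (by rw [hs]; linarith)
      (by rw [hθ, hs]; ring) (hclass K hK) le_rfl
  -- group by (d, d')
  set md : ℕ → ℝ := fun d => ∑ v ∈ V.filter (fun v => dpart a M1 v = d), μ v with hmd
  set nd : ℕ → ℝ := fun d => ∑ v ∈ W.filter (fun v => dpart a M2 v = d), ν v with hnd
  have hmd0 : ∀ d, 0 ≤ md d := fun d => sum_nonneg fun v _ => hμ0 v
  have hnd0 : ∀ d, 0 ≤ nd d := fun d => sum_nonneg fun v _ => hν0 v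
  have step3 : ∑ K ∈ Ks, X (K.1.1, K.2.1) ^ θ * (m K.1 * n K.2) ^ s ≤
      ∑ d ∈ a.divisors ×ˢ a.divisors, X d ^ θ * (4 * (md d.1 * nd d.2) ^ s) := by
    rw [← sum_fiberwise_of_maps_to (g := fun K : (ℕ × ℕ) × (ℕ × ℕ) => (K.1.1, K.2.1))
      (t := a.divisors ×ˢ a.divisors) (fun K hK => (hmem K hK).1)]
    refine sum_le_sum fun d _ => ?_
    rw [sum_congr rfl (fun K hK => by rw [(mem_filter.mp hK).2]), ← mul_sum]
    refine mul_le_mul_of_nonneg_left ?_ (Real.rpow_nonneg (hX0 d) _)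
    set P := Ks.filter (fun K : (ℕ × ℕ) × (ℕ × ℕ) => (K.1.1, K.2.1) = d) with hP
    have win : ∀ K ∈ P, ∀ L ∈ P, K.1.2 + K.2.2 < L.1.2 + L.2.2 + 4 := by
      intro K hK L hL
      obtain ⟨-, a1, -⟩ := hmem K (mem_filter.mp hK).1
      obtain ⟨-, -, a2⟩ := hmem L (mem_filter.mp hL).1
      have h1 : (2:ℝ) ^ (K.1.2 + K.2.2) < 2 ^ (L.1.2 + L.2.2 + 4) := by
        refine lt_of_mul_lt_mul_left (a1.trans_le ?_) hc0.le
        calc 4 * Λ ≤ 4 * (c * 2 ^ (L.1.2 + L.2.2 + 2)) := by linarith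
          _ = _ := by ring
      exact (pow_lt_pow_iff_right₀ one_lt_two).mp h1
    have deg : ∀ (f g : (ℕ × ℕ) × (ℕ × ℕ) → ℕ × ℕ), (∀ K ∈ P, ∀ L ∈ P, f K = f L →
        (g K).1 = (g L).1) → (∀ K ∈ P, (f K).2 + (g K).2 = K.1.2 + K.2.2) →
        (∀ K L, f K = f L → g K = g L → K = L) → ∀ i, (P.filter (fun e => f e = i)).card ≤ 4 := by
      intro f g hfg hsum hinj i
      rcases (P.filter (fun e => f e = i)).eq_empty_or_nonempty with h0 | ⟨L0, hL0⟩
      · simp [h0]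
      obtain ⟨L, hL, hmax⟩ := exists_max_image (P.filter (fun e => f e = i))
        (fun K => (g K).2) ⟨L0, hL0⟩
      have : (P.filter (fun e => f e = i)).card ≤ (Icc ((g L).2 - 3) (g L).2).card := by
        refine card_le_card_of_injOn (fun K => (g K).2) (fun K hK => ?_) (fun K hK K' hK' h => ?_)
        · have hK' := mem_filter.mp hK
          have hL' := mem_filter.mp hL
          have := win L hL'.1 K hK'.1
          rw [← hsum L hL'.1, ← hsum K hK'.1, hL'.2, hK'.2] at this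
          simp only [coe_Icc, Set.mem_Icc]
          have := hmax K hK
          omega
        · obtain ⟨hK1', hK2'⟩ := mem_filter.mp hK
          obtain ⟨hK3', hK4'⟩ := mem_filter.mp hK'
          exact hinj K K' (hK2'.trans hK4'.symm)
            (Prod.ext (hfg K hK1' K' hK3' (hK2'.trans hK4'.symm)) h)
      rw [Nat.card_Icc] at this
      omega
    have hdd : ∀ K ∈ P, ∀ L ∈ P, K.1.1 = L.1.1 ∧ K.2.1 = L.2.1 := fun K hK L hL =>
      Prod.ext_iff.mp ((mem_filter.mp hK).2.trans (mem_filter.mp hL).2.symm)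
    refine (degree_le (s := s) (by rw [hs]; linarith) 4 P (x := m) (y := n) hm0 hn0
      (deg Prod.fst Prod.snd (fun K hK L hL _ => (hdd K hK L hL).2) (fun K _ => rfl)
        (fun K L h1 h2 => Prod.ext h1 h2))
      (deg Prod.snd Prod.fst (fun K hK L hL _ => (hdd K hK L hL).1) (fun K _ => add_comm _ _)
        (fun K L h1 h2 => Prod.ext h2 h1))).trans ?_
    push_cast
    refine mul_le_mul_of_nonneg_left (Real.rpow_le_rpow
      (mul_nonneg (sum_nonneg fun i _ => hm0 i) (sum_nonneg fun i _ => hn0 i)) ?_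
      (by rw [hs]; linarith)) (by norm_num)
    refine mul_le_mul ?_ ?_ (sum_nonneg fun i _ => hn0 i) (hmd0 _)
    · calc ∑ i ∈ P.image Prod.fst, m i
          = ∑ i ∈ P.image Prod.fst,
              ∑ v ∈ (V.filter (fun v => dpart a M1 v = d.1)).filter (fun v => K1 v = i), μ v := by
            refine sum_congr rfl fun i hi => ?_
            obtain ⟨K, hK, rfl⟩ := mem_image.mp hi
            rw [hm, filter_filter]
            refine sum_congr (filter_congr fun v _ => ⟨fun h => ⟨?_, h⟩, fun h => h.2⟩) fun _ _ => rfl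
            have h1 := congrArg Prod.fst h
            have h2 := congrArg Prod.fst (mem_filter.mp hK).2
            simp only [hK1] at h1
            exact h1.trans h2
        _ ≤ md d.1 := by
            rw [sum_fiberwise_eq_sum_filter]
            exact sum_le_sum_of_subset_of_nonneg (filter_subset _ _) fun v _ _ => hμ0 v
    · calc ∑ i ∈ P.image Prod.snd, n i
          = ∑ i ∈ P.image Prod.snd,
              ∑ v ∈ (W.filter (fun v => dpart a M2 v = d.2)).filter (fun v => K2 v = i), ν v := by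
            refine sum_congr rfl fun i hi => ?_
            obtain ⟨K, hK, rfl⟩ := mem_image.mp hi
            rw [hn, filter_filter]
            refine sum_congr (filter_congr fun v _ => ⟨fun h => ⟨?_, h⟩, fun h => h.2⟩) fun _ _ => rfl
            have h1 := congrArg Prod.fst h
            have h2 := congrArg Prod.snd (mem_filter.mp hK).2
            simp only [hK2] at h1
            exact h1.trans h2
        _ ≤ nd d.2 := by
            rw [sum_fiberwise_eq_sum_filter]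
            exact sum_le_sum_of_subset_of_nonneg (filter_subset _ _) fun v _ _ => hν0 v
  -- Hoelder
  have step4 : ∑ d ∈ a.divisors ×ˢ a.divisors, X d ^ θ * (4 * (md d.1 * nd d.2) ^ s) ≤
      4 * (256 * (ρ * σ * Λ ^ 2) / ((M1:ℝ) * M2)) ^ θ * (mass1 μ E * mass2 ν E) ^ s := by
    rw [sum_congr rfl (fun d _ => mul_left_comm _ _ _), ← mul_sum, mul_assoc]
    refine mul_le_mul_of_nonneg_left ?_ (by norm_num)
    refine (holder _ hθ0 (by rw [hθ]; linarith) (fun d _ => hX0 d)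
      (fun d _ => Real.rpow_nonneg (mul_nonneg (hmd0 _) (hnd0 _)) _)).trans ?_
    have es : 1 - θ = s := by rw [hθ, hs]; ring
    have eT : ∀ d : ℕ × ℕ, ((md d.1 * nd d.2) ^ s) ^ (1 / (1 - θ)) = md d.1 * nd d.2 := fun d => by
      rw [es, ← Real.rpow_mul (mul_nonneg (hmd0 _) (hnd0 _)), mul_one_div,
        div_self (by rw [hs]; linarith), Real.rpow_one]
    rw [sum_congr rfl (fun d _ => eT d), es]
    refine mul_le_mul (Real.rpow_le_rpow (sum_nonneg fun d _ => hX0 d) ?_ hθ0.le)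
      (Real.rpow_le_rpow (sum_nonneg fun d _ => mul_nonneg (hmd0 _) (hnd0 _)) ?_
        (by rw [hs]; linarith)) (Real.rpow_nonneg (sum_nonneg fun d _ => mul_nonneg (hmd0 _) (hnd0 _)) _)
      (Real.rpow_nonneg (by positivity) _)
    · simp only [hX]
      rw [← mul_sum, ← sum_div, sum_product' (f := fun x y : ℕ => (Nat.totient x : ℝ) * Nat.totient y),
        ← sum_mul_sum, ← Nat.cast_sum, Nat.sum_totient, ← sq, div_self (by positivity), mul_one]
    · rw [sum_product' (f := fun x y : ℕ => md x * nd y), ← sum_mul_sum]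
      refine mul_le_mul ?_ ?_ (sum_nonneg fun i _ => hnd0 i) (sum_nonneg fun v _ => hμ0 v)
      · simp only [hmd]
        rw [sum_fiberwise_eq_sum_filter]
        exact sum_le_sum_of_subset_of_nonneg (filter_subset _ _) fun v _ _ => hμ0 v
      · simp only [hnd]
        rw [sum_fiberwise_eq_sum_filter]
        exact sum_le_sum_of_subset_of_nonneg (filter_subset _ _) fun v _ _ => hν0 v
  exact step1.trans (step2.trans (step3.trans step4))

/-- The base case. -/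
theorem base {β : ℝ} (hη : 0 < η) (hη' : η ≤ 1/4) (hβ : 0 < β) (hβ' : β ≤ 1/2)
    (hμ0 : ∀ v, 0 ≤ μ v) (hν0 : ∀ v, 0 ≤ ν v)
    (hμ : ∀ v, μ v ≤ ρ * (Nat.totient v : ℝ)) (hν : ∀ v, ν v ≤ σ * (Nat.totient v : ℝ))
    (hρ : 0 ≤ ρ) (hσ : 0 ≤ σ) (hcfg : Cfg ∅ a M1 M2 E) (hE : Edges Λ R E) :
    ∑ e ∈ E, μ e.1 * ν e.2 ≤ 16384 * (ρ * σ * Λ ^ 2) ^ (1/2 - η) *
      ((M1:ℝ) * M2) ^ (-((1/2 - η) * (1 - β))) * (∑ x ∈ R, tauW x) ^ (β * (1/2 - η)) *
      (mass1 μ E * mass2 ν E) ^ (1/2 + η) := by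
  have h1 := base_size hη hη' hμ0 hν0 hμ hν hρ hσ hcfg hE
  have h2 := base_hit hμ0 hν0 hμ hν hρ hσ hcfg hE
  obtain ⟨-, hM1, hM2, -, -⟩ := hcfg
  have hm : 0 ≤ mass1 μ E * mass2 ν E :=
    mul_nonneg (sum_nonneg fun v _ => hμ0 v) (sum_nonneg fun v _ => hν0 v)
  set θ := 1/2 - η with hθ
  set s := 1/2 + η with hs
  set x := ∑ e ∈ E, μ e.1 * ν e.2 with hx
  set B := ρ * σ * Λ ^ 2 with hB
  set N := (M1:ℝ) * M2 with hN
  set H := ∑ y ∈ R, tauW y with hH
  set P := mass1 μ E * mass2 ν E with hP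
  have hθ0 : 0 < θ := by rw [hθ]; linarith
  have hθ1 : θ ≤ 1/2 := by rw [hθ]; linarith
  have hx0 : 0 ≤ x := sum_nonneg fun e _ => mul_nonneg (hμ0 _) (hν0 _)
  have hB0 : 0 ≤ B := by positivity
  have hN0 : 0 < N := by
    have : 0 < M1 * M2 := mul_pos hM1 hM2
    rw [hN]; exact_mod_cast this
  have hH0 : 0 ≤ H := sum_nonneg fun y _ => tauW_nonneg y
  have hxP : x ≤ P := sum_prod_le E _ _ hμ0 hν0 fun e he =>
    ⟨mem_image_of_mem _ he, mem_image_of_mem _ he⟩
  have h3 : x ≤ (16 * B * H) ^ θ * P ^ s :=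
    min_rpow_le hx0 hθ0.le (by rw [hs]; linarith) (by rw [hθ, hs]; ring) h2 hxP
  have hBt : 0 ≤ B ^ θ := Real.rpow_nonneg hB0 _
  have hPs : 0 ≤ P ^ s := Real.rpow_nonneg hm _
  have hHt : 0 ≤ H ^ θ := Real.rpow_nonneg hH0 _
  have hNt : 0 ≤ N ^ (-θ) := Real.rpow_nonneg hN0.le _
  have k1 : x ≤ 16384 * (B ^ θ * N ^ (-θ) * P ^ s) := by
    refine h1.trans ?_
    rw [mul_div_assoc, Real.mul_rpow (by norm_num) (div_nonneg hB0 hN0.le),
      Real.div_rpow hB0 hN0.le, Real.rpow_neg hN0.le, ← div_eq_mul_inv]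
    have : (256:ℝ) ^ θ ≤ 256 := Real.rpow_le_self_of_one_le (by norm_num) (by linarith)
    have hnn : 0 ≤ B ^ θ / N ^ θ * P ^ s :=
      mul_nonneg (div_nonneg hBt (Real.rpow_nonneg hN0.le _)) hPs
    nlinarith [mul_le_mul_of_nonneg_right this hnn]
  have k2 : x ≤ 16384 * (B ^ θ * H ^ θ * P ^ s) := by
    refine h3.trans ?_
    rw [Real.mul_rpow (by positivity) hH0, Real.mul_rpow (by norm_num) hB0]
    have : (16:ℝ) ^ θ ≤ 16 := Real.rpow_le_self_of_one_le (by norm_num) (by linarith)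
    have hnn : 0 ≤ B ^ θ * H ^ θ * P ^ s := mul_nonneg (mul_nonneg hBt hHt) hPs
    nlinarith [mul_le_mul_of_nonneg_right this hnn]
  calc x ≤ (16384 * (B ^ θ * N ^ (-θ) * P ^ s)) ^ (1 - β) * (16384 * (B ^ θ * H ^ θ * P ^ s)) ^ β :=
        min_rpow_le hx0 (by linarith) hβ.le (by ring) k1 k2
    _ = _ := by
        have hc : (0:ℝ) ≤ 16384 := by norm_num
        rw [Real.mul_rpow hc (by positivity), Real.mul_rpow hc (by positivity),
          Real.mul_rpow (mul_nonneg hBt hNt) hPs, Real.mul_rpow hBt hNt,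
          Real.mul_rpow (mul_nonneg hBt hHt) hPs, Real.mul_rpow hBt hHt]
        have e1 : ∀ {u : ℝ}, 0 ≤ u → u ^ (1 - β) * u ^ β = u := fun hu => by
          rw [← Real.rpow_add' hu (by linarith), sub_add_cancel, Real.rpow_one]
        rw [← Real.rpow_mul hN0.le, ← Real.rpow_mul hH0]
        calc _ = ((16384:ℝ) ^ (1 - β) * (16384:ℝ) ^ β) * ((B ^ θ) ^ (1 - β) * (B ^ θ) ^ β) *
              N ^ (-θ * (1 - β)) * H ^ (θ * β) * ((P ^ s) ^ (1 - β) * (P ^ s) ^ β) := by ring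
          _ = _ := by rw [e1 hc, e1 hBt, e1 hPs, neg_mul, mul_comm θ β]

end

end Vale.P028NF
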