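import Vale.Agent.P028.NF.Defs

/-! # P028 near-full: overlap of two sets in a period -/

open MeasureTheory Set Metric
open Vale.P028
open scoped ENNReal

namespace Vale.P028NF

theorem card_points {q r : ℕ} (hq : 0 < q) (hr : 0 < r) {γ t u : ℝ} (ht : 0 ≤ t) (hu : 0 ≤ u)
    (ht' : t ≤ 1/2) (hu' : u ≤ 1/2) :
    ∃ n : ℝ, volume.real (Hit q γ t ∩ Hit r γ u ∩ Ico 0 1) ≤ n * (2 * min (t / q) (u / r)) ∧
      n ≤ (4 * max (((red (q, r)).2 : ℝ) * t) (((red (q, r)).1 : ℝ) * u) + 1)
        * (4 * (Nat.gcd q r : ℝ)) ∧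
      ((¬ ∃ j : ℤ, |(j : ℝ) + γ * (((red (q, r)).2 : ℝ) - (red (q, r)).1)| <
        2 * max (((red (q, r)).2 : ℝ) * t) (((red (q, r)).1 : ℝ) * u)) → n ≤ 0) := by
  classical
  set g := Nat.gcd q r with hg
  have hgpos : 0 < g := Nat.gcd_pos_of_pos_left r hq
  obtain ⟨q', hq'⟩ : g ∣ q := Nat.gcd_dvd_left q r
  obtain ⟨r', hr'⟩ : g ∣ r := Nat.gcd_dvd_right q r
  have hq'pos : 0 < q' := by
    rcases Nat.eq_zero_or_pos q' with h | h
    · subst h; simp at hq'; omega
    · exact h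
  have hcop : Nat.Coprime q' r' := by
    have : g * Nat.gcd q' r' = g * 1 := by
      rw [← Nat.gcd_mul_left, ← hq', ← hr', mul_one]
    exact Nat.eq_of_mul_eq_mul_left hgpos this
  have hqR : (0:ℝ) < q := by exact_mod_cast hq
  have hrR : (0:ℝ) < r := by exact_mod_cast hr
  have hgR : (0:ℝ) < g := by exact_mod_cast hgpos
  set D : ℝ := r * t + q * u with hD
  have hD0 : 0 ≤ D := by positivity
  set sh : ℝ := r * γ - q * γ with hsh
  set P : Finset (ℤ × ℤ) :=
    ((Finset.Icc (⌈-γ - 1⌉) (⌊(q:ℝ) - γ + 1⌋)) ×ˢ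
      (Finset.Icc (⌈-γ - 1⌉) (⌊(r:ℝ) - γ + 1⌋))).filter
      (fun p => -γ - 1 < (p.1:ℝ) ∧ (p.1:ℝ) < -γ - 1 + ((q:ℝ) + 2) ∧
        |(p.1:ℝ) * r - p.2 * q + sh| < D) with hP
  set B : ℤ × ℤ → Set ℝ :=
    fun p => ball (((p.1:ℝ) + γ) / q) (t / q) ∩ ball (((p.2:ℝ) + γ) / r) (u / r) with hB
  have hcover : Hit q γ t ∩ Hit r γ u ∩ Ico 0 1 ⊆ ⋃ p ∈ P, B p := by
    rintro x ⟨⟨⟨a, ha⟩, b, hb⟩, hx0, hx1⟩
    have ha' := abs_lt.mp ha
    have hb' := abs_lt.mp hb
    have q0 : 0 ≤ (q:ℝ) * x := by positivity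
    have q1 : (q:ℝ) * x ≤ q := by nlinarith
    have r0 : 0 ≤ (r:ℝ) * x := by positivity
    have r1 : (r:ℝ) * x ≤ r := by nlinarith
    refine mem_biUnion (x := (a, b)) ?_ ⟨?_, ?_⟩
    · simp only [hP, Finset.mem_coe, Finset.mem_filter, Finset.mem_product, Finset.mem_Icc,
        Int.ceil_le, Int.le_floor]
      refine ⟨⟨⟨by linarith, by linarith⟩, by linarith, by linarith⟩, by linarith, by linarith, ?_⟩
      rw [abs_lt, hsh, hD]
      constructor <;> nlinarith [mul_lt_mul_of_pos_left ha'.1 hrR, mul_lt_mul_of_pos_left ha'.2 hrR,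
        mul_lt_mul_of_pos_left hb'.1 hqR, mul_lt_mul_of_pos_left hb'.2 hqR]
    · rw [mem_ball, Real.dist_eq]
      rw [show x - ((a:ℝ) + γ) / q = ((q:ℝ) * x - a - γ) / q by field_simp; ring, abs_div,
        abs_of_pos hqR]
      gcongr
    · rw [mem_ball, Real.dist_eq]
      rw [show x - ((b:ℝ) + γ) / r = ((r:ℝ) * x - b - γ) / r by field_simp; ring, abs_div,
        abs_of_pos hrR]
      gcongr
  set mn := min (t / q) (u / r) with hmn
  have hmn0 : 0 ≤ mn := le_min (by positivity) (by positivity)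
  have hBle : ∀ p, volume.real (B p) ≤ 2 * mn := by
    intro p
    have l1 : volume.real (B p) ≤ volume.real (ball (((p.1:ℝ) + γ) / q) (t / q)) :=
      measureReal_mono inter_subset_left measure_ball_lt_top.ne
    have l2 : volume.real (B p) ≤ volume.real (ball (((p.2:ℝ) + γ) / r) (u / r)) :=
      measureReal_mono inter_subset_right measure_ball_lt_top.ne
    rw [measureReal_def (s := ball _ _), Real.volume_ball,
      ENNReal.toReal_ofReal (by positivity)] at l1 l2
    rw [hmn]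
    rcases min_choice (t / q) (u / r) with h | h <;> rw [h] <;> assumption
  -- counting
  set f : ℤ × ℤ → ℤ := fun p => p.1 * r' - p.2 * q' with hf
  have hfib : ∀ m ∈ P.image f, ((P.filter fun p => f p = m).card : ℝ) ≤ 4 * g := by
    intro m _
    set F := P.filter fun p => f p = m with hF
    have hinj : Set.InjOn Prod.fst (F : Set (ℤ × ℤ)) := by
      intro p hp p' hp' h
      have e1 : f p = m := (Finset.mem_filter.mp hp).2
      have e2 : f p' = m := (Finset.mem_filter.mp hp').2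
      simp only [hf] at e1 e2
      have e3 : p.2 * (q':ℤ) = p'.2 * q' := by rw [h] at e1; linarith
      exact Prod.ext h (mul_right_cancel₀ (by exact_mod_cast hq'pos.ne') e3)
    rw [← Finset.card_image_of_injOn hinj]
    refine (card_spaced (u := -γ - 1) (l := (q:ℝ) + 2) hq'pos (by positivity) ?_ ?_).trans ?_
    · intro a ha
      obtain ⟨p, hp, rfl⟩ := Finset.mem_image.mp ha
      have := (Finset.mem_filter.mp (Finset.mem_filter.mp hp).1).2
      exact ⟨this.1, this.2.1⟩
    · intro a ha a' ha'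
      obtain ⟨p, hp, rfl⟩ := Finset.mem_image.mp ha
      obtain ⟨p', hp', rfl⟩ := Finset.mem_image.mp ha'
      have e1 : f p = m := (Finset.mem_filter.mp hp).2
      have e2 : f p' = m := (Finset.mem_filter.mp hp').2
      simp only [hf] at e1 e2
      have : (q':ℤ) ∣ (p.1 - p'.1) * r' := ⟨p.2 - p'.2, by linear_combination e1 - e2⟩
      exact (Int.isCoprime_iff_nat_coprime.mpr (by simpa using hcop)).dvd_of_dvd_mul_right this
    · have hq'1 : (1:ℝ) ≤ q' := by exact_mod_cast hq'pos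
      have hg1 : (1:ℝ) ≤ g := by exact_mod_cast hgpos
      rw [hq', Nat.cast_mul, add_div, mul_div_assoc, div_self (by positivity)]
      have : (2:ℝ) / q' ≤ 2 := div_le_self (by norm_num) hq'1
      linarith
  have himg : ((P.image f).card : ℝ) ≤ 2 * D / g + 1 := by
    refine (card_spaced (u := -sh / g - D / g) (l := 2 * D / g) one_pos (by positivity) ?_
      (fun a _ b _ => by simp)).trans (by simp)
    intro m hm
    obtain ⟨p, hp, rfl⟩ := Finset.mem_image.mp hm
    have h3 := abs_lt.mp (Finset.mem_filter.mp hp).2.2.2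
    have e : (f p : ℝ) = ((p.1:ℝ) * r - p.2 * q) / g := by
      rw [hq', hr', hf]; push_cast; field_simp
    rw [e]
    constructor
    · rw [← sub_pos]
      have : 0 < ((p.1:ℝ) * r - p.2 * q + sh + D) / g := div_pos (by linarith) hgR
      calc (0:ℝ) < _ := this
        _ = _ := by field_simp; ring
    · rw [← sub_pos]
      have : 0 < (D - ((p.1:ℝ) * r - p.2 * q + sh)) / g := div_pos (by linarith) hgR
      calc (0:ℝ) < _ := this
        _ = _ := by field_simp; ring
  have hred : red (q, r) = (q', r') := by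
    show (q / g, r / g) = (q', r')
    conv_lhs => rw [hq', hr']
    rw [Nat.mul_div_cancel_left _ hgpos, Nat.mul_div_cancel_left _ hgpos]
  have hsh' : sh / g = γ * ((r':ℝ) - q') := by
    rw [hsh, hq', hr']; push_cast; field_simp
  have hD2 : D / g ≤ 2 * max ((r':ℝ) * t) ((q':ℝ) * u) := by
    have e : D / g = (r':ℝ) * t + q' * u := by
      rw [hD, hq', hr']; push_cast; field_simp
    have := le_max_left ((r':ℝ) * t) ((q':ℝ) * u)
    have := le_max_right ((r':ℝ) * t) ((q':ℝ) * u)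
    linarith
  have hempty : (¬ ∃ j : ℤ, |(j : ℝ) + γ * ((r':ℝ) - q')| <
      2 * max ((r':ℝ) * t) ((q':ℝ) * u)) → P = ∅ := by
    intro hno
    by_contra hne
    obtain ⟨p, hp⟩ := Finset.nonempty_iff_ne_empty.mpr hne
    refine hno ⟨f p, lt_of_lt_of_le ?_ hD2⟩
    have h3 := (Finset.mem_filter.mp hp).2.2.2
    have e : (f p : ℝ) + γ * ((r':ℝ) - q') = ((p.1:ℝ) * r - p.2 * q + sh) / g := by
      rw [← hsh', hq', hr', hf]; push_cast; field_simp
    rw [e, abs_div, abs_of_pos hgR]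
    exact div_lt_div_of_pos_right h3 hgR
  have hcard : (P.card : ℝ) ≤ (2 * D / g + 1) * (4 * g) := by
    rw [Finset.card_eq_sum_card_image f P, Nat.cast_sum]
    calc (∑ m ∈ P.image f, ((P.filter fun p => f p = m).card : ℝ))
        ≤ ∑ m ∈ P.image f, 4 * (g:ℝ) := Finset.sum_le_sum hfib
      _ = (P.image f).card * (4 * (g:ℝ)) := by rw [Finset.sum_const, nsmul_eq_mul]
      _ ≤ _ := mul_le_mul_of_nonneg_right himg (by positivity)
  have h1 : volume.real (Hit q γ t ∩ Hit r γ u ∩ Ico 0 1) ≤ P.card * (2 * mn) := by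
    have hfin : volume (⋃ p ∈ P, B p) ≠ ∞ := by
      refine ne_top_of_le_ne_top ?_ (measure_biUnion_finset_le P B)
      refine ENNReal.sum_ne_top.mpr fun p _ => ne_top_of_le_ne_top ?_ (measure_mono inter_subset_left)
      exact measure_ball_lt_top.ne
    calc _ ≤ volume.real (⋃ p ∈ P, B p) := measureReal_mono hcover hfin
      _ ≤ ∑ p ∈ P, volume.real (B p) := measureReal_biUnion_finset_le P B
      _ ≤ ∑ p ∈ P, 2 * mn := Finset.sum_le_sum fun p _ => hBle p
      _ = _ := by rw [Finset.sum_const, nsmul_eq_mul]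
  refine ⟨(P.card : ℝ), h1, ?_, ?_⟩
  · rw [hred]
    refine hcard.trans (mul_le_mul_of_nonneg_right ?_ (by positivity))
    have : 2 * D / g = 2 * (D / g) := by ring
    dsimp only
    linarith
  · rw [hred]
    intro hno
    rw [hempty hno]; simp

/-- Module `Pairs`. -/
theorem pairs : PairStmt := by
  intro γ ψ q r hq hr hψq hψq' hψr hψr'
  set g := Nat.gcd q r with hg
  have hgpos : 0 < g := Nat.gcd_pos_of_pos_left r hq
  set q' := (red (q, r)).1 with hq1
  set r' := (red (q, r)).2 with hr1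
  have eq1 : (g:ℝ) * q' = q := by
    exact_mod_cast Nat.mul_div_cancel' (Nat.gcd_dvd_left q r)
  have er1 : (g:ℝ) * r' = r := by
    exact_mod_cast Nat.mul_div_cancel' (Nat.gcd_dvd_right q r)
  have hqR : (0:ℝ) < q := by exact_mod_cast hq
  have hrR : (0:ℝ) < r := by exact_mod_cast hr
  have hgR : (0:ℝ) < g := by exact_mod_cast hgpos
  obtain ⟨n, h1, h2, h3⟩ := card_points (γ := γ) hq hr hψq.le hψr.le hψq' hψr'
  have hd : DD ψ q r = max ((r':ℝ) * ψ q) ((q':ℝ) * ψ r) := rfl
  set D := DD ψ q r with hDdef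
  have hr'0 : (0:ℝ) < r' := by
    rcases (Nat.cast_nonneg (α := ℝ) r').eq_or_lt with h | h
    · rw [← h, mul_zero] at er1; linarith
    · exact h
  have hD0 : 0 < D := by rw [hd]; exact lt_max_of_lt_left (by positivity)
  set mn := min (ψ q / q) (ψ r / r) with hmn
  have hmn0 : 0 ≤ mn := le_min (by positivity) (by positivity)
  have hprod : D * ((g:ℝ) * mn) ≤ ψ q * ψ r := by
    rw [hd, max_mul_of_nonneg _ _ (by positivity)]
    refine max_le ?_ ?_
    · calc (r':ℝ) * ψ q * (g * mn) = ((g:ℝ) * r') * ψ q * mn := by ring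
        _ ≤ (r:ℝ) * ψ q * (ψ r / r) := by
          rw [er1]; exact mul_le_mul_of_nonneg_left (min_le_right _ _) (by positivity)
        _ = _ := by field_simp
    · calc (q':ℝ) * ψ r * (g * mn) = ((g:ℝ) * q') * ψ r * mn := by ring
        _ ≤ (q:ℝ) * ψ r * (ψ q / q) := by
          rw [eq1]; exact mul_le_mul_of_nonneg_left (min_le_left _ _) (by positivity)
        _ = _ := by field_simp
  have hgm : (g:ℝ) * mn ≤ ψ q * ψ r / D := by
    rw [le_div_iff₀ hD0]; linarith
  have hmain : volume.real (Hit q γ (ψ q) ∩ Hit r γ (ψ r) ∩ Ico 0 1)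
      ≤ 8 * (4 * D + 1) * (ψ q * ψ r / D) := by
    refine h1.trans ?_
    calc n * (2 * mn) ≤ (4 * D + 1) * (4 * (g:ℝ)) * (2 * mn) :=
          mul_le_mul_of_nonneg_right (by rw [hd]; exact h2) (by positivity)
      _ = 8 * (4 * D + 1) * ((g:ℝ) * mn) := by ring
      _ ≤ _ := mul_le_mul_of_nonneg_left hgm (by positivity)
  have hp0 : 0 ≤ ψ q * ψ r / D := by positivity
  have e : 8 * (4 * D + 1) * (ψ q * ψ r / D) = 32 * (ψ q * ψ r) + 8 * (ψ q * ψ r / D) := by
    field_simp; ring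
  refine ⟨fun hD1 => ?_, fun hD1 => ?_, fun hno => ?_⟩
  · have : ψ q * ψ r / D ≤ ψ q * ψ r := div_le_self (by positivity) hD1
    linarith
  · have : ψ q * ψ r ≤ ψ q * ψ r / D := le_div_self (by positivity) hD0 hD1.le
    have e2 : 40 * ψ q * ψ r / D = 40 * (ψ q * ψ r / D) := by ring
    linarith
  · exact h1.trans (mul_nonpos_of_nonpos_of_nonneg (h3 hno) (by positivity))

end Vale.P028NF
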