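import Vale.Agent.P028.NF.Sum
import Vale.Agent.P028.NF.Hits
import Vale.Agent.P028.NF.Pairs
import Vale.Agent.P028.NF.Full

/-! # P028 near-full: assembly -/

open Finset MeasureTheory Filter

namespace Vale.P028NF

theorem dioph_of_not_liouville {γ : ℝ} (hirr : Irrational γ) (hL : ¬ Liouville γ) :
    ∃ (w : ℕ) (c : ℝ), Dioph γ w c := by
  unfold Liouville at hL
  push Not at hL
  obtain ⟨n, hn⟩ := hL
  have hf0 : 0 < Int.fract γ := Int.fract_pos.mpr fun h => hirr.ne_int _ h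
  have hf1 : Int.fract γ < 1 := Int.fract_lt_one γ
  refine ⟨n + 1, min 1 (min (Int.fract γ) (1 - Int.fract γ)), by omega,
    lt_min one_pos (lt_min hf0 (by linarith)), fun h hh j => ?_⟩
  rcases eq_or_lt_of_le hh with h1 | h1
  · subst h1
    simp only [Nat.cast_one, one_pow, one_mul]
    refine le_trans (min_le_right _ _) ?_
    have e : γ + (j:ℝ) = Int.fract γ + ((⌊γ⌋ + j : ℤ) : ℝ) := by
      rw [Int.fract]; push_cast; ring
    rw [e]
    rcases le_or_gt 0 (⌊γ⌋ + j) with h0 | h0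
    · have : (0:ℝ) ≤ ((⌊γ⌋ + j : ℤ) : ℝ) := by exact_mod_cast h0
      rw [abs_of_nonneg (by linarith)]
      linarith [min_le_left (Int.fract γ) (1 - Int.fract γ)]
    · have : ((⌊γ⌋ + j : ℤ) : ℝ) ≤ -1 := by exact_mod_cast (show ⌊γ⌋ + j ≤ -1 by omega)
      rw [abs_of_nonpos (by linarith)]
      linarith [min_le_right (Int.fract γ) (1 - Int.fract γ)]
  · refine le_trans (min_le_left _ _) ?_
    have hne : γ ≠ ((-j : ℤ) : ℝ) / ((h:ℤ) : ℝ) := by
      intro e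
      refine hirr.ne_rat (((-j : ℤ) : ℚ) / ((h:ℤ) : ℚ)) ?_
      rw [e]; push_cast; ring
    have h2 := hn (-j) (h:ℤ) (by exact_mod_cast h1) hne
    push_cast at h2
    have hR : (1:ℝ) ≤ h := by exact_mod_cast hh
    have e : γ - (-(j:ℝ)) / h = ((h:ℝ) * γ + j) / h := by field_simp; ring
    rw [e, abs_div, abs_of_pos (by linarith : (0:ℝ) < h), le_div_iff₀ (by linarith)] at h2
    rw [div_mul_eq_mul_div, one_mul, div_le_iff₀ (by positivity)] at h2
    calc (1:ℝ) ≤ h := hR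
      _ ≤ |(h:ℝ) * γ + j| * (h:ℝ) ^ n := h2
      _ ≤ |(h:ℝ) * γ + j| * (h:ℝ) ^ (n + 1) :=
          mul_le_mul_of_nonneg_left (pow_le_pow_right₀ hR (by omega)) (abs_nonneg _)
      _ = _ := mul_comm _ _

/-- A block with sum between one and two. -/
theorem unit_block {T : ℕ → ℝ} (h0 : ∀ n, 0 ≤ T n) (h1 : ∀ n, T n ≤ 1) (hdiv : ¬ Summable T)
    (M : ℕ) : ∃ S : Finset ℕ, (∀ n ∈ S, M ≤ n ∧ T n ≠ 0) ∧
      1 ≤ ∑ n ∈ S, T n ∧ ∑ n ∈ S, T n ≤ 2 := by
  classical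
  have hd : ¬ Summable (fun k => T (k + M)) := fun h => hdiv ((summable_nat_add_iff M).mp h)
  have ht := (not_summable_iff_tendsto_nat_atTop_of_nonneg (fun k => h0 (k + M))).mp hd
  have hex : ∃ n, 1 ≤ ∑ i ∈ range n, T (i + M) := (ht.eventually_ge_atTop 1).exists
  set n := Nat.find hex with hn
  have hn1 : 1 ≤ ∑ i ∈ range n, T (i + M) := Nat.find_spec hex
  have hn2 : ∑ i ∈ range n, T (i + M) ≤ 2 := by
    cases hcase : n with
    | zero => simp
    | succ m =>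
      have h2 : ¬ (1 ≤ ∑ i ∈ range m, T (i + M)) := Nat.find_min hex (by omega)
      rw [sum_range_succ]
      linarith [h1 (m + M), not_le.mp h2]
  refine ⟨((range n).image (fun i => i + M)).filter (fun k => T k ≠ 0), fun k hk => ?_, ?_⟩
  · obtain ⟨h, h'⟩ := mem_filter.mp hk
    obtain ⟨i, -, rfl⟩ := mem_image.mp h
    exact ⟨by omega, h'⟩
  · rw [sum_filter_ne_zero, sum_image (fun a _ b _ h => Nat.add_right_cancel h)]
    exact ⟨hn1, hn2⟩

/-- The size parameter in the weight. -/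
noncomputable def Lq (ψ : ℕ → ℝ) (q : ℕ) : ℝ :=
  min (Real.log q) (max 0 (Real.log (1 / ψ q)))

theorem Lq_nonneg (ψ : ℕ → ℝ) (q : ℕ) : 0 ≤ Lq ψ q :=
  le_min (Real.log_natCast_nonneg q) (le_max_left _ _)

/-- One of the two sides: a property under which close pairs have bounded reduced parts. -/
def Side (ψ : ℕ → ℝ) (P : ℕ → Prop) : Prop :=
  ∀ q r, 0 < q → 0 < r → 0 < ψ q → 0 < ψ r → P q → P r → DD ψ q r < 1 →
    ((red (q, r)).1 : ℝ) ≤ Real.exp (max (Lq ψ q) (Lq ψ r)) ∧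
    ((red (q, r)).2 : ℝ) ≤ Real.exp (max (Lq ψ q) (Lq ψ r))

theorem side_small (ψ : ℕ → ℝ) : Side ψ (fun q => (q:ℝ) * ψ q < 1) := by
  intro q r hq hr hψq hψr hPq hPr _
  have key : ∀ n : ℕ, 0 < n → 0 < ψ n → (n:ℝ) * ψ n < 1 → Lq ψ n = Real.log n := by
    intro n hn hψ h
    refine min_eq_left (le_max_of_le_right (Real.log_le_log (by exact_mod_cast hn) ?_))
    rw [le_div_iff₀ hψ]; exact h.le
  have h1 : ((red (q, r)).1 : ℝ) ≤ q := by exact_mod_cast Nat.div_le_self q (Nat.gcd q r)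
  have h2 : ((red (q, r)).2 : ℝ) ≤ r := by exact_mod_cast Nat.div_le_self r (Nat.gcd q r)
  have e1 : (q:ℝ) ≤ Real.exp (max (Lq ψ q) (Lq ψ r)) := by
    calc (q:ℝ) = Real.exp (Lq ψ q) := by
          rw [key q hq hψq hPq, Real.exp_log (by exact_mod_cast hq)]
      _ ≤ _ := Real.exp_le_exp.mpr (le_max_left _ _)
  have e2 : (r:ℝ) ≤ Real.exp (max (Lq ψ q) (Lq ψ r)) := by
    calc (r:ℝ) = Real.exp (Lq ψ r) := by
          rw [key r hr hψr hPr, Real.exp_log (by exact_mod_cast hr)]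
      _ ≤ _ := Real.exp_le_exp.mpr (le_max_right _ _)
  exact ⟨h1.trans e1, h2.trans e2⟩

theorem side_large (ψ : ℕ → ℝ) : Side ψ (fun q => 1 ≤ (q:ℝ) * ψ q) := by
  intro q r hq hr hψq hψr hPq hPr hD
  have key : ∀ n : ℕ, 0 < n → 0 < ψ n → 1 ≤ (n:ℝ) * ψ n →
      1 / ψ n ≤ Real.exp (Lq ψ n) := by
    intro n hn hψ h
    have hlog : Real.log (1 / ψ n) ≤ Real.log n :=
      Real.log_le_log (by positivity) (by rw [div_le_iff₀ hψ]; exact h)
    have : Lq ψ n = max 0 (Real.log (1 / ψ n)) :=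
      min_eq_right (max_le (Real.log_natCast_nonneg n) hlog)
    calc 1 / ψ n = Real.exp (Real.log (1 / ψ n)) := (Real.exp_log (by positivity)).symm
      _ ≤ _ := Real.exp_le_exp.mpr (by rw [this]; exact le_max_right _ _)
  have a1 := lt_of_le_of_lt (le_max_left _ _) hD
  have a2 := lt_of_le_of_lt (le_max_right _ _) hD
  constructor
  · refine le_trans ?_ (Real.exp_le_exp.mpr (le_max_right (Lq ψ q) _))
    refine le_trans ?_ (key r hr hψr hPr)
    rw [le_div_iff₀ hψr]; exact a2.le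
  · refine le_trans ?_ (Real.exp_le_exp.mpr (le_max_left _ (Lq ψ r)))
    refine le_trans ?_ (key q hq hψq hPq)
    rw [le_div_iff₀ hψq]; exact a1.le

/-- The near-full inhomogeneous Duffin-Schaeffer theorem. -/
theorem main (γ : ℝ) (hirr : Irrational γ) (hL : ¬ Liouville γ) (ε : ℝ) (hε : 0 < ε)
    (ψ : ℕ → ℝ) (hψ : ∀ q, 0 ≤ ψ q)
    (hdiv : ¬ Summable fun q : ℕ => wt ε (Lq ψ) q * ψ q) :
    volume {x : ℝ | ¬ {q : ℕ | 0 < q ∧ ∃ a : ℤ, |(q : ℝ) * x - a - γ| < ψ q}.Infinite} = 0 := by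
  classical
  obtain ⟨w, c, hD⟩ := dioph_of_not_liouville hirr hL
  by_cases hbig : {q : ℕ | 0 < q ∧ 1/2 < ψ q}.Infinite
  · refine measure_mono_null (fun x hx => ?_) (measure_empty (μ := volume))
    refine absurd (hbig.mono fun q hq => ?_) hx
    refine ⟨hq.1, round ((q:ℝ) * x - γ), ?_⟩
    have := abs_sub_round ((q:ℝ) * x - γ)
    calc |(q:ℝ) * x - (round ((q:ℝ) * x - γ) : ℝ) - γ|
        = |(q:ℝ) * x - γ - (round ((q:ℝ) * x - γ) : ℝ)| := by congr 1; ring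
      _ < ψ q := lt_of_le_of_lt this hq.2
  obtain ⟨Q0, hQ0⟩ := (Set.not_infinite.mp hbig).bddAbove
  have hhalf : ∀ q, Q0 < q → ψ q ≤ 1/2 := fun q hq => by
    by_contra h
    exact absurd (hQ0 ⟨by omega, not_le.mp h⟩) (by omega)
  set T : ℕ → ℝ := fun q => wt ε (Lq ψ) q * ψ q with hT
  have hwt : ∀ q, 0 ≤ wt ε (Lq ψ) q ∧ wt ε (Lq ψ) q ≤ 1 := fun q => by
    rcases Nat.eq_zero_or_pos q with h | h
    · subst h; simp [wt]
    · exact wt_bounds hε h (Lq_nonneg ψ q)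
  have hT0 : ∀ q, 0 ≤ T q := fun q => mul_nonneg (hwt q).1 (hψ q)
  -- one side carries the divergence
  have hside : ∃ P : ℕ → Prop, Side ψ P ∧
      ¬ Summable (fun q => if P q ∧ Q0 < q then T q else 0) := by
    by_contra h
    push Not at h
    apply hdiv
    refine ((h _ (side_large ψ)).add (h _ (side_small ψ))).of_norm_bounded_eventually_nat ?_
    refine eventually_atTop.mpr ⟨Q0 + 1, fun q hq => ?_⟩
    rw [Real.norm_eq_abs, abs_of_nonneg (hT0 q)]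
    rcases le_or_gt 1 ((q:ℝ) * ψ q) with h1 | h1
    · simp only [if_pos (And.intro h1 (show Q0 < q by omega)),
        if_neg (fun h' : (q:ℝ) * ψ q < 1 ∧ Q0 < q => not_lt.mpr h1 h'.1)]
      linarith
    · simp only [if_pos (And.intro h1 (show Q0 < q by omega)),
        if_neg (fun h' : 1 ≤ (q:ℝ) * ψ q ∧ Q0 < q => not_le.mpr h1 h'.1)]
      linarith
  obtain ⟨P, hP, hPdiv⟩ := hside
  obtain ⟨C, hC⟩ := second pairs hits gcdIneq γ w c ε hD hε
  refine full γ ψ (wt ε (Lq ψ)) (9 * |C|) hwt fun Q => ?_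
  obtain ⟨S, hS, hs1, hs2⟩ := unit_block
    (T := fun q => if P q ∧ Q0 < q then T q else 0)
    (fun q => by split_ifs <;> [exact hT0 q; exact le_rfl])
    (fun q => by
      split_ifs with h
      · exact (mul_le_mul (hwt q).2 (hhalf q h.2) (hψ q) zero_le_one).trans (by norm_num)
      · exact zero_le_one) hPdiv Q
  have hfacts : ∀ q ∈ S, Q ≤ q ∧ 0 < q ∧ 0 < ψ q ∧ ψ q ≤ 1/2 ∧ P q ∧ Q0 < q := fun q hq => by
    obtain ⟨h1, h2⟩ := hS q hq
    have hPq : P q ∧ Q0 < q := by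
      by_contra h; exact h2 (if_neg h)
    refine ⟨h1, by omega, lt_of_le_of_ne (hψ q) (fun h => h2 ?_), hhalf q hPq.2, hPq⟩
    rw [if_pos hPq]; simp [hT, ← h]
  have hsum : ∑ q ∈ S, (if P q ∧ Q0 < q then T q else 0) = ∑ q ∈ S, wt ε (Lq ψ) q * ψ q :=
    sum_congr rfl fun q hq => if_pos (hfacts q hq).2.2.2.2
  rw [hsum] at hs1 hs2
  refine ⟨S, fun q hq => ?_, hs1, hs2, ?_⟩
  · obtain ⟨h1, h2, h3, h4, -⟩ := hfacts q hq
    exact ⟨h1, h2, h3.le, h4⟩
  · refine (hC ψ (Lq ψ) S (fun q hq => ?_) (fun q hq r hr hd => ?_)).trans ?_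
    · obtain ⟨-, h2, h3, h4, -⟩ := hfacts q hq
      exact ⟨h2, h3, h4, Lq_nonneg ψ q⟩
    · exact hP q r (hfacts q hq).2.1 (hfacts r hr).2.1 (hfacts q hq).2.2.1 (hfacts r hr).2.2.1
        (hfacts q hq).2.2.2.2.1 (hfacts r hr).2.2.2.2.1 hd
    · have h9 : (1 + ∑ q ∈ S, wt ε (Lq ψ) q * ψ q) ^ 2 ≤ 9 := by nlinarith
      calc C * (1 + ∑ q ∈ S, wt ε (Lq ψ) q * ψ q) ^ 2
          ≤ |C| * (1 + ∑ q ∈ S, wt ε (Lq ψ) q * ψ q) ^ 2 :=
            mul_le_mul_of_nonneg_right (le_abs_self C) (sq_nonneg _)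
        _ ≤ |C| * 9 := mul_le_mul_of_nonneg_left h9 (abs_nonneg C)
        _ = _ := mul_comm _ _

end Vale.P028NF
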