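import Vale.Agent.P028.NF.Defs

/-! # P028 near-full: the one-prime numerical lemma -/

open Finset Filter

namespace Vale.P028NF

/-- The part of `sum (x_i y_j)^s` on the diagonal `i - j = l`. -/
noncomputable def diag (s : ℝ) (I J : Finset ℕ) (x y : ℕ → ℝ) (l : ℤ) : ℝ :=
  ∑ i ∈ I, ∑ j ∈ J, if (i:ℤ) - j = l then (x i * y j) ^ s else 0

theorem diag_nonneg {s : ℝ} {I J : Finset ℕ} {x y : ℕ → ℝ} (hx : ∀ i ∈ I, 0 ≤ x i)
    (hy : ∀ j ∈ J, 0 ≤ y j) (l : ℤ) : 0 ≤ diag s I J x y l := by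
  refine sum_nonneg fun i hi => sum_nonneg fun j hj => ?_
  split_ifs
  · exact Real.rpow_nonneg (mul_nonneg (hx i hi) (hy j hj)) _
  · exact le_rfl

theorem mul_rpow_le_half {s u v : ℝ} (hs : 1/2 ≤ s) (hu : 0 ≤ u) (hu1 : u ≤ 1) (hv : 0 ≤ v)
    (hv1 : v ≤ 1) : (u * v) ^ s ≤ (u + v) / 2 := by
  calc (u * v) ^ s ≤ (u * v) ^ (1/2 : ℝ) :=
        Real.rpow_le_rpow_of_exponent_ge' (mul_nonneg hu hv) (mul_le_one₀ hu1 hv hv1)
          (by norm_num) hs
    _ = Real.sqrt (u * v) := (Real.sqrt_eq_rpow _).symm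
    _ ≤ (u + v) / 2 := by
        rw [Real.sqrt_le_left (by linarith)]
        nlinarith [sq_nonneg (u - v)]

theorem sum_ite_le_sum {J : Finset ℕ} {f : ℕ → ℝ} (hf : ∀ j ∈ J, 0 ≤ f j) (P : ℕ → Prop)
    [DecidablePred P] : ∑ j ∈ J, (if P j then f j else 0) ≤ ∑ j ∈ J, f j :=
  sum_le_sum fun j hj => by split_ifs <;> [exact le_rfl; exact hf j hj]

/-- A diagonal contains each index at most once. -/
theorem diag_sum_le {I J : Finset ℕ} {f : ℕ → ℝ} (hf : ∀ i ∈ I, 0 ≤ f i) (l : ℤ) :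
    ∑ i ∈ I, ∑ j ∈ J, (if (i:ℤ) - j = l then f i else 0) ≤ ∑ i ∈ I, f i := by
  refine sum_le_sum fun i hi => ?_
  rw [← sum_filter, sum_const, nsmul_eq_mul]
  refine mul_le_of_le_one_left (hf i hi) ?_
  refine Nat.cast_le_one.mpr (card_le_one.mpr fun a ha b hb => ?_)
  simp only [mem_filter] at ha hb; omega

theorem diag_le {s : ℝ} (hs : 1/2 ≤ s) {I J : Finset ℕ} {x y : ℕ → ℝ} (hx : ∀ i ∈ I, 0 ≤ x i)
    (hy : ∀ j ∈ J, 0 ≤ y j) (l : ℤ) :
    diag s I J x y l ≤ ((∑ i ∈ I, x i) * (∑ j ∈ J, y j)) ^ s := by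
  set X := ∑ i ∈ I, x i with hX
  set Y := ∑ j ∈ J, y j with hY
  have hX0 : 0 ≤ X := sum_nonneg hx
  have hY0 : 0 ≤ Y := sum_nonneg hy
  have hs0 : s ≠ 0 := by linarith
  rcases eq_or_ne (X * Y) 0 with h0 | h0
  · have : diag s I J x y l = 0 := by
      refine sum_eq_zero fun i hi => sum_eq_zero fun j hj => ?_
      have hij : x i * y j = 0 := by
        rcases mul_eq_zero.mp h0 with h | h
        · simp [(sum_eq_zero_iff_of_nonneg hx).mp h i hi]
        · simp [(sum_eq_zero_iff_of_nonneg hy).mp h j hj]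
      rw [hij, Real.zero_rpow hs0, ite_self]
    rw [this, h0, Real.zero_rpow hs0]
  · have hXp : 0 < X := lt_of_le_of_ne hX0 (Ne.symm (mul_ne_zero_iff.mp h0).1)
    have hYp : 0 < Y := lt_of_le_of_ne hY0 (Ne.symm (mul_ne_zero_iff.mp h0).2)
    have hb : ∀ i ∈ I, ∀ j ∈ J, (x i * y j) ^ s ≤ (X * Y) ^ s * ((x i / X + y j / Y) / 2) := by
      intro i hi j hj
      have e : x i * y j = X * Y * (x i / X * (y j / Y)) := by field_simp
      have hu : 0 ≤ x i / X := div_nonneg (hx i hi) hX0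
      have hv : 0 ≤ y j / Y := div_nonneg (hy j hj) hY0
      rw [e, Real.mul_rpow (mul_nonneg hX0 hY0) (mul_nonneg hu hv)]
      refine mul_le_mul_of_nonneg_left ?_ (Real.rpow_nonneg (mul_nonneg hX0 hY0) _)
      exact mul_rpow_le_half hs hu
        ((div_le_one hXp).mpr (single_le_sum hx hi)) hv ((div_le_one hYp).mpr (single_le_sum hy hj))
    have h1 : diag s I J x y l ≤ (X * Y) ^ s *
        (((∑ i ∈ I, ∑ j ∈ J, (if (i:ℤ) - j = l then x i / X else 0)) +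
          (∑ i ∈ I, ∑ j ∈ J, (if (i:ℤ) - j = l then y j / Y else 0))) / 2) := by
      rw [← sum_add_distrib, sum_div, mul_sum]
      refine sum_le_sum fun i hi => ?_
      rw [← sum_add_distrib, sum_div, mul_sum]
      refine sum_le_sum fun j hj => ?_
      split_ifs
      · exact hb i hi j hj
      · simp
    refine h1.trans (mul_le_of_le_one_right (Real.rpow_nonneg (mul_nonneg hX0 hY0) _) ?_)
    have a1 := diag_sum_le (J := J) (f := fun i => x i / X)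
      (fun i hi => div_nonneg (hx i hi) hX0) l
    have a2 : ∑ i ∈ I, ∑ j ∈ J, (if (i:ℤ) - j = l then y j / Y else 0) ≤ ∑ j ∈ J, y j / Y := by
      rw [sum_comm]
      have := diag_sum_le (J := I) (f := fun j => y j / Y)
        (fun j hj => div_nonneg (hy j hj) hY0) (-l)
      refine le_trans (le_of_eq ?_) this
      refine sum_congr rfl fun j _ => sum_congr rfl fun i _ => ?_
      split_ifs with h1 h2 h2 <;> [rfl; omega; omega; rfl]
    have e1 : ∑ i ∈ I, x i / X = 1 := by rw [← sum_div, ← hX, div_self hXp.ne']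
    have e2 : ∑ j ∈ J, y j / Y = 1 := by rw [← sum_div, ← hY, div_self hYp.ne']
    linarith

/-- A two-sided geometric series. -/
theorem geom_int {δ : ℝ} (h0 : 0 ≤ δ) (h1 : δ < 1) (A : Finset ℤ) :
    ∑ l ∈ A, δ ^ l.natAbs ≤ 1 + 2 * δ / (1 - δ) ∧
    ((0:ℤ) ∉ A → ∑ l ∈ A, δ ^ l.natAbs ≤ 2 * δ / (1 - δ)) := by
  have key : ∀ B : Finset ℤ, (0:ℤ) ∉ B → ∑ l ∈ B, δ ^ l.natAbs ≤ 2 * δ / (1 - δ) := by
    intro B hB
    rw [← sum_fiberwise_of_maps_to (g := Int.natAbs) (t := B.image Int.natAbs)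
      (fun l hl => mem_image_of_mem _ hl)]
    have h2 : ∀ n ∈ B.image Int.natAbs,
        ∑ l ∈ B.filter (fun l => l.natAbs = n), δ ^ l.natAbs ≤ 2 * δ ^ n := by
      intro n _
      rw [sum_congr rfl (fun l hl => by rw [(mem_filter.mp hl).2]), sum_const, nsmul_eq_mul]
      refine mul_le_mul_of_nonneg_right ?_ (pow_nonneg h0 _)
      have : B.filter (fun l => l.natAbs = n) ⊆ {(n:ℤ), -(n:ℤ)} := by
        intro l hl
        have := (mem_filter.mp hl).2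
        simp only [mem_insert, mem_singleton]; omega
      exact_mod_cast (card_le_card this).trans card_le_two
    refine (sum_le_sum h2).trans ?_
    rw [← mul_sum, mul_div_assoc]
    refine mul_le_mul_of_nonneg_left ?_ (by norm_num)
    have hn1 : ∀ n ∈ B.image Int.natAbs, 1 ≤ n := by
      intro n hn
      obtain ⟨l, hl, rfl⟩ := mem_image.mp hn
      have : l ≠ 0 := fun h => hB (h ▸ hl)
      omega
    calc ∑ n ∈ B.image Int.natAbs, δ ^ n
        = δ * ∑ n ∈ (B.image Int.natAbs).image (fun n => n - 1), δ ^ n := by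
          rw [mul_sum, sum_image (f := fun n => δ * δ ^ n) (s := B.image Int.natAbs)
            (g := fun n => n - 1) (fun a ha b hb h => by
            have := hn1 a ha; have := hn1 b hb; simp only at h; omega)]
          exact sum_congr rfl fun n hn => by
            rw [← pow_succ']; congr 1; have := hn1 n hn; omega
      _ ≤ δ * (1 - δ)⁻¹ := by
          refine mul_le_mul_of_nonneg_left ?_ h0
          rw [← tsum_geometric_of_lt_one h0 h1]
          exact (summable_geometric_of_lt_one h0 h1).sum_le_tsum _ (fun n _ => pow_nonneg h0 n)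
      _ = δ / (1 - δ) := (div_eq_mul_inv _ _).symm
  refine ⟨?_, key A⟩
  have h2 : 0 ≤ 2 * δ / (1 - δ) := div_nonneg (by linarith) (by linarith)
  by_cases hA : (0:ℤ) ∈ A
  · rw [← add_sum_erase A _ hA]
    have := key (A.erase 0) (notMem_erase _ _)
    simpa using this
  · have := key A hA
    linarith

theorem weighted_le {s δ : ℝ} (hs : 1/2 ≤ s) (h0 : 0 ≤ δ) (h1 : δ < 1) {I J : Finset ℕ}
    {x y : ℕ → ℝ} (hx : ∀ i ∈ I, 0 ≤ x i) (hy : ∀ j ∈ J, 0 ≤ y j) :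
    ∑ i ∈ I, ∑ j ∈ J, δ ^ ((i:ℤ) - j).natAbs * (x i * y j) ^ s ≤
      (1 + 2 * δ / (1 - δ)) * ((∑ i ∈ I, x i) * (∑ j ∈ J, y j)) ^ s := by
  set A := (I ×ˢ J).image (fun e => (e.1:ℤ) - e.2) with hA
  have e : ∑ i ∈ I, ∑ j ∈ J, δ ^ ((i:ℤ) - j).natAbs * (x i * y j) ^ s =
      ∑ l ∈ A, δ ^ l.natAbs * diag s I J x y l := by
    simp only [diag, mul_sum, mul_ite, mul_zero]
    symm
    rw [sum_comm]
    refine sum_congr rfl fun i hi => ?_
    rw [sum_comm]
    refine sum_congr rfl fun j hj => ?_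
    rw [sum_ite_eq, if_pos (mem_image.mpr ⟨(i, j), mem_product.mpr ⟨hi, hj⟩, rfl⟩)]
  rw [e]
  calc ∑ l ∈ A, δ ^ l.natAbs * diag s I J x y l
      ≤ ∑ l ∈ A, δ ^ l.natAbs * ((∑ i ∈ I, x i) * (∑ j ∈ J, y j)) ^ s :=
        sum_le_sum fun l _ => mul_le_mul_of_nonneg_left (diag_le hs hx hy l) (pow_nonneg h0 _)
    _ ≤ _ := by
        rw [← sum_mul]
        exact mul_le_mul_of_nonneg_right (geom_int h0 h1 A).1
          (Real.rpow_nonneg (mul_nonneg (sum_nonneg hx) (sum_nonneg hy)) _)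

/-- Hoelder with exponents `1/a` and `1/(1-a)`. -/
theorem holder {ι : Type*} (A : Finset ι) {h T : ι → ℝ} {a : ℝ} (ha : 0 < a) (ha1 : a < 1)
    (hh : ∀ l ∈ A, 0 ≤ h l) (hT : ∀ l ∈ A, 0 ≤ T l) :
    ∑ l ∈ A, h l ^ a * T l ≤ (∑ l ∈ A, h l) ^ a * (∑ l ∈ A, T l ^ (1 / (1 - a))) ^ (1 - a) := by
  have hpq : (1 / a).HolderConjugate (1 / (1 - a)) := by
    rw [Real.holderConjugate_iff]
    refine ⟨by rw [lt_div_iff₀ ha]; linarith, ?_⟩
    rw [one_div, one_div, inv_inv, inv_inv]; ring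
  have := Real.inner_le_Lp_mul_Lq_of_nonneg A hpq (f := fun l => h l ^ a) (g := T)
    (fun l hl => Real.rpow_nonneg (hh l hl) _) hT
  rw [one_div_one_div, one_div_one_div] at this
  refine this.trans (le_of_eq ?_)
  congr 2
  exact sum_congr rfl fun l hl => by
    rw [← Real.rpow_mul (hh l hl), mul_one_div, div_self ha.ne', Real.rpow_one]

theorem split_zero (A : Finset ℤ) {f : ℤ → ℝ} (hf : ∀ l, 0 ≤ f l) :
    ∑ l ∈ A, f l ≤ f 0 + ∑ l ∈ A.erase 0, f l := by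
  by_cases h0 : (0:ℤ) ∈ A
  · rw [add_sum_erase A f h0]
  · rw [erase_eq_of_notMem h0]; linarith [hf 0]

theorem diag_zero (s : ℝ) (I : Finset ℕ) (x y : ℕ → ℝ) :
    diag s I I x y 0 = ∑ i ∈ I, (x i * y i) ^ s :=
  sum_congr rfl fun i hi => by
    rw [sum_eq_single i (fun j _ hj => if_neg (by omega)) (fun h => absurd hi h), if_pos (sub_self _)]

theorem no_dominant {η q d : ℝ} (hη : 0 < η) (hq1 : 1 ≤ q) (hd0 : 0 ≤ d) (hd8 : d ≤ 1/8)
    {I : Finset ℕ} {x y : ℕ → ℝ} (hx : ∀ i ∈ I, 0 ≤ x i) (hy : ∀ i ∈ I, 0 ≤ y i)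
    (hX : ∑ i ∈ I, x i = 1) (hY : ∑ i ∈ I, y i = 1)
    (hcase : ∀ i ∈ I, (x i * y i) ^ η ≤ 1 - 4 * d) (A : Finset ℤ) :
    ∑ l ∈ A, (d ^ l.natAbs * diag (1/2 + η) I I x y l) ^ q ≤ 1 := by
  have hS0 : ∀ l, 0 ≤ diag (1/2 + η) I I x y l := diag_nonneg hx hy
  have hS1 : ∀ l, diag (1/2 + η) I I x y l ≤ 1 := fun l => by
    have := diag_le (s := 1/2 + η) (by linarith) hx hy l
    rwa [hX, hY, one_mul, Real.one_rpow] at this
  have h0 : ∀ l : ℤ, 0 ≤ d ^ l.natAbs * diag (1/2 + η) I I x y l := fun l =>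
    mul_nonneg (pow_nonneg hd0 _) (hS0 l)
  refine (sum_le_sum fun l _ => Real.rpow_le_self_of_le_one (h0 l)
    (mul_le_one₀ (pow_le_one₀ hd0 (by linarith)) (hS0 l) (hS1 l)) hq1).trans
      ((split_zero A h0).trans ?_)
  have h1 : diag (1/2 + η) I I x y 0 ≤ 1 - 4 * d := by
    rw [diag_zero]
    calc ∑ i ∈ I, (x i * y i) ^ (1/2 + η) ≤ ∑ i ∈ I, (1 - 4 * d) * ((x i + y i) / 2) := by
          refine sum_le_sum fun i hi => ?_
          have hnn : 0 ≤ x i * y i := mul_nonneg (hx i hi) (hy i hi)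
          rw [add_comm (1/2 : ℝ) η, Real.rpow_add' hnn (by linarith)]
          exact mul_le_mul (hcase i hi)
            (mul_rpow_le_half le_rfl (hx i hi) (hX ▸ single_le_sum hx hi) (hy i hi)
              (hY ▸ single_le_sum hy hi))
            (Real.rpow_nonneg hnn _) (by linarith)
      _ = _ := by rw [← mul_sum, ← sum_div, sum_add_distrib, hX, hY]; ring
  have h2 : ∑ l ∈ A.erase 0, d ^ l.natAbs * diag (1/2 + η) I I x y l ≤ 4 * d := by
    refine (sum_le_sum fun l _ => mul_le_of_le_one_right (pow_nonneg hd0 _) (hS1 l)).trans ?_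
    refine ((geom_int hd0 (by linarith) _).2 (notMem_erase _ _)).trans ?_
    rw [div_le_iff₀ (by linarith)]; nlinarith
  simp only [Int.natAbs_zero, pow_zero, one_mul]
  linarith

theorem off_diag_le {s z : ℝ} (hs : 1/2 ≤ s) {I : Finset ℕ} {x y : ℕ → ℝ} {k : ℕ} (hk : k ∈ I)
    (hx : ∀ i ∈ I, 0 ≤ x i) (hy : ∀ i ∈ I, 0 ≤ y i) (hX : ∑ i ∈ I, x i = 1)
    (hY : ∑ i ∈ I, y i = 1) (hz : (1 - x k) + (1 - y k) = z) (hz1 : z ≤ 1) {l : ℤ} (hl0 : l ≠ 0) :
    diag s I I x y l ≤ 3 * z ^ s := by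
  have hxk1 : x k ≤ 1 := hX ▸ single_le_sum hx hk
  have hyk1 : y k ≤ 1 := hY ▸ single_le_sum hy hk
  have hz_nn : 0 ≤ z := by linarith
  have hxe : ∑ i ∈ I.erase k, x i = 1 - x k := by rw [sum_erase_eq_sub hk, hX]
  have hye : ∑ i ∈ I.erase k, y i = 1 - y k := by rw [sum_erase_eq_sub hk, hY]
  have hxE : ∀ i ∈ I.erase k, 0 ≤ x i := fun i hi => hx i (mem_of_mem_erase hi)
  have hyE : ∀ i ∈ I.erase k, 0 ≤ y i := fun i hi => hy i (mem_of_mem_erase hi)
  have one : ∀ (P : ℕ → Prop) [DecidablePred P] (f : ℕ → ℝ),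
      (∀ a b, P a → P b → a = b) → ¬ P k → (∀ i ∈ I, i ≠ k → f i ≤ z ^ s) →
      ∑ i ∈ I, (if P i then f i else 0) ≤ z ^ s := by
    intro P _ f hu hPk hf
    rw [← sum_filter]
    refine (sum_le_card_nsmul _ _ (z ^ s) fun i hi => hf i (mem_filter.mp hi).1
      (fun h => hPk (h ▸ (mem_filter.mp hi).2))).trans ?_
    rw [nsmul_eq_mul]
    refine mul_le_of_le_one_left (Real.rpow_nonneg hz_nn _) ?_
    exact Nat.cast_le_one.mpr (card_le_one.mpr fun a ha b hb =>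
      hu a b (mem_filter.mp ha).2 (mem_filter.mp hb).2)
  have hrow : ∑ j ∈ I, (if (k:ℤ) - j = l then (x k * y j) ^ s else 0) ≤ z ^ s := by
    refine one _ _ (fun u v hu hv => by omega) (by omega) fun j hj hjk => ?_
    refine Real.rpow_le_rpow (mul_nonneg (hx k hk) (hy j hj)) ?_ (by linarith)
    have h1 : y j ≤ 1 - y k := hye ▸ single_le_sum hyE (mem_erase.mpr ⟨hjk, hj⟩)
    have := mul_le_of_le_one_left (hy j hj) hxk1
    linarith
  have hcol : ∑ i ∈ I.erase k, (if (i:ℤ) - k = l then (x i * y k) ^ s else 0) ≤ z ^ s := by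
    refine le_trans (sum_le_sum_of_subset_of_nonneg (erase_subset k I) fun i hi _ => ?_)
      (one _ _ (fun u v hu hv => by omega) (by omega) fun i hi hik => ?_)
    · split_ifs
      · exact Real.rpow_nonneg (mul_nonneg (hx i hi) (hy k hk)) _
      · exact le_rfl
    · refine Real.rpow_le_rpow (mul_nonneg (hx i hi) (hy k hk)) ?_ (by linarith)
      have h1 : x i ≤ 1 - x k := hxe ▸ single_le_sum hxE (mem_erase.mpr ⟨hik, hi⟩)
      have := mul_le_of_le_one_right (hx i hi) hyk1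
      linarith
  have hrest : diag s (I.erase k) (I.erase k) x y l ≤ z ^ s := by
    refine (diag_le hs hxE hyE l).trans ?_
    refine Real.rpow_le_rpow (mul_nonneg (sum_nonneg hxE) (sum_nonneg hyE)) ?_ (by linarith)
    rw [hxe, hye]
    calc (1 - x k) * (1 - y k) ≤ z * 1 :=
          mul_le_mul (by linarith) (by linarith) (by linarith) hz_nn
      _ = z := mul_one z
  have e : diag s I I x y l = ∑ j ∈ I, (if (k:ℤ) - j = l then (x k * y j) ^ s else 0) +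
      (∑ i ∈ I.erase k, (if (i:ℤ) - k = l then (x i * y k) ^ s else 0) +
        diag s (I.erase k) (I.erase k) x y l) := by
    unfold diag
    rw [← add_sum_erase I _ hk, ← sum_add_distrib]
    congr 1
    exact sum_congr rfl fun i _ => (add_sum_erase I _ hk).symm
  linarith

theorem rest_sq_le {s z : ℝ} (hs : 1/2 ≤ s) {I : Finset ℕ} {x y : ℕ → ℝ} {k : ℕ} (hk : k ∈ I)
    (hx : ∀ i ∈ I, 0 ≤ x i) (hy : ∀ i ∈ I, 0 ≤ y i) (hX : ∑ i ∈ I, x i = 1)
    (hY : ∑ i ∈ I, y i = 1) (hz : (1 - x k) + (1 - y k) = z) :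
    ((∑ i ∈ I.erase k, x i) * (∑ i ∈ I.erase k, y i)) ^ s ≤ z ^ (2 * s) := by
  have hxk1 : x k ≤ 1 := hX ▸ single_le_sum hx hk
  have hyk1 : y k ≤ 1 := hY ▸ single_le_sum hy hk
  have hz_nn : 0 ≤ z := by linarith
  rw [sum_erase_eq_sub hk, sum_erase_eq_sub hk, hX, hY, Real.rpow_mul hz_nn, Real.rpow_two, sq]
  refine Real.rpow_le_rpow (mul_nonneg (by linarith) (by linarith)) ?_ (by linarith)
  exact mul_le_mul (by linarith) (by linarith) (by linarith) hz_nn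

theorem dominant_small {η q d P : ℝ} (hη : 0 < η) (hq1 : 1 ≤ q) (hq2 : q ≤ 2) (hd0 : 0 ≤ d)
    (hd8 : d ≤ 1/8) (hkey : ∀ z : ℝ, P < z → 0 < z → d ^ q * z ^ ((1/2 + η) * q) ≤ z / 108)
    {I : Finset ℕ} {x y : ℕ → ℝ} {k : ℕ} (hk : k ∈ I)
    (hx : ∀ i ∈ I, 0 ≤ x i) (hy : ∀ i ∈ I, 0 ≤ y i) (hX : ∑ i ∈ I, x i = 1)
    (hY : ∑ i ∈ I, y i = 1) {z : ℝ} (hz : (1 - x k) + (1 - y k) = z) (hP : P < z) (hzpos : 0 < z)
    (hz6 : z ^ (2 * η) ≤ 1/6) (A : Finset ℤ) :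
    ∑ l ∈ A, (d ^ l.natAbs * diag (1/2 + η) I I x y l) ^ q ≤ 1 := by
  have hxk1 : x k ≤ 1 := hX ▸ single_le_sum hx hk
  have hyk1 : y k ≤ 1 := hY ▸ single_le_sum hy hk
  have hs : (1/2 : ℝ) ≤ 1/2 + η := by linarith
  have hz1 : z ≤ 1 := by
    by_contra h
    linarith [Real.one_le_rpow (not_le.mp h).le (show 0 ≤ 2 * η by linarith)]
  have hS0 : ∀ l, 0 ≤ diag (1/2 + η) I I x y l := diag_nonneg hx hy
  have hS1 : ∀ l, diag (1/2 + η) I I x y l ≤ 1 := fun l => by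
    have := diag_le hs hx hy l
    rwa [hX, hY, one_mul, Real.one_rpow] at this
  have hD0 : diag (1/2 + η) I I x y 0 ≤ 1 - z / 3 := by
    rw [diag_zero, ← add_sum_erase I _ hk]
    have h1 := mul_rpow_le_half hs (hx k hk) hxk1 (hy k hk) hyk1
    have h2 : ∑ i ∈ I.erase k, (x i * y i) ^ (1/2 + η) ≤ z ^ (2 * (1/2 + η)) := by
      refine le_trans (le_of_eq ?_) ((diag_le hs (fun i hi => hx i (mem_of_mem_erase hi))
        (fun i hi => hy i (mem_of_mem_erase hi)) 0).trans (rest_sq_le hs hk hx hy hX hY hz))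
      exact (diag_zero _ _ _ _).symm
    have h3 : z ^ (2 * (1/2 + η)) ≤ z / 6 := by
      rw [show 2 * (1/2 + η) = 1 + 2 * η by ring, Real.rpow_add hzpos, Real.rpow_one]
      calc z * z ^ (2 * η) ≤ z * (1/6) := mul_le_mul_of_nonneg_left hz6 hzpos.le
        _ = z / 6 := by ring
    have : (x k + y k) / 2 = 1 - z / 2 := by linarith
    linarith
  have hterm0 : ∀ l : ℤ, 0 ≤ (d ^ l.natAbs * diag (1/2 + η) I I x y l) ^ q := fun l =>
    Real.rpow_nonneg (mul_nonneg (pow_nonneg hd0 _) (hS0 l)) _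
  refine (split_zero A hterm0).trans ?_
  have h0 : (d ^ (0:ℤ).natAbs * diag (1/2 + η) I I x y 0) ^ q ≤ 1 - z / 3 := by
    rw [Int.natAbs_zero, pow_zero, one_mul]
    exact (Real.rpow_le_self_of_le_one (hS0 0) (hS1 0) hq1).trans hD0
  have hdq0 : 0 ≤ d ^ q := Real.rpow_nonneg hd0 _
  have hdq : d ^ q ≤ d := Real.rpow_le_self_of_le_one hd0 (by linarith) hq1
  have hzn : 0 ≤ 9 * z ^ ((1/2 + η) * q) := mul_nonneg (by norm_num) (Real.rpow_nonneg hzpos.le _)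
  have h9 : (3 * z ^ (1/2 + η)) ^ q ≤ 9 * z ^ ((1/2 + η) * q) := by
    rw [Real.mul_rpow (by norm_num) (Real.rpow_nonneg hzpos.le _), ← Real.rpow_mul hzpos.le]
    refine mul_le_mul_of_nonneg_right ?_ (Real.rpow_nonneg hzpos.le _)
    calc (3:ℝ) ^ q ≤ 3 ^ (2:ℝ) := Real.rpow_le_rpow_of_exponent_le (by norm_num) hq2
      _ = 9 := by norm_num
  have hE : ∑ l ∈ A.erase 0, (d ^ l.natAbs * diag (1/2 + η) I I x y l) ^ q ≤
      4 * d ^ q * (9 * z ^ ((1/2 + η) * q)) := by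
    calc ∑ l ∈ A.erase 0, (d ^ l.natAbs * diag (1/2 + η) I I x y l) ^ q
        ≤ ∑ l ∈ A.erase 0, (d ^ q) ^ l.natAbs * (9 * z ^ ((1/2 + η) * q)) := by
          refine sum_le_sum fun l hl => ?_
          rw [Real.mul_rpow (pow_nonneg hd0 _) (hS0 l), Real.rpow_pow_comm hd0]
          exact mul_le_mul_of_nonneg_left ((Real.rpow_le_rpow (hS0 l)
            (off_diag_le hs hk hx hy hX hY hz hz1 (ne_of_mem_erase hl)) (by linarith)).trans h9)
            (Real.rpow_nonneg (pow_nonneg hd0 _) _)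
      _ ≤ _ := by
          rw [← sum_mul]
          refine mul_le_mul_of_nonneg_right ?_ hzn
          refine ((geom_int hdq0 (by linarith) _).2 (notMem_erase _ _)).trans ?_
          rw [div_le_iff₀ (by linarith)]; nlinarith
  have := hkey z hP hzpos
  linarith

/-- The one-prime lemma. -/
theorem num {η β : ℝ} (hη : 0 < η) (hη' : η ≤ 1/4) (hβ : 0 < β) (hβ' : β ≤ 1/2) :
    ∃ c : ℕ → ℝ, Summable c ∧ (∀ p, 0 ≤ c p) ∧ ∀ p : ℕ, 2 ≤ p →
      ∀ (I : Finset ℕ) (x y : ℕ → ℝ), (∀ i ∈ I, 0 ≤ x i) → (∀ i ∈ I, 0 ≤ y i) →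
        ∑ i ∈ I, x i = 1 → ∑ i ∈ I, y i = 1 →
        (∑ l ∈ (I ×ˢ I).image (fun e => (e.1:ℤ) - e.2),
            (((p:ℝ) ^ (-((1/2 - η) * (1 - β)))) ^ l.natAbs * diag (1/2 + η) I I x y l) ^
              (1 / (1 - β * (1/2 - η)))) ^ (1 - β * (1/2 - η)) ≤ Real.exp (c p) ∨
        ∃ k ∈ I, 1 + ∑ i ∈ I.erase k, ∑ j ∈ I.erase k,
            ((p:ℝ) ^ (-((1/2 - η) * (1 - β)))) ^ ((i:ℤ) - j).natAbs *
              (x i * y j) ^ (1/2 + η) ≤ Real.exp (c p) := by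
  set θ := 1/2 - η with hθ
  set s := 1/2 + η with hs
  set a := β * θ with ha
  set t' := θ * (1 - β) with ht'
  set q := 1 / (1 - a) with hq
  have hθ0 : 0 < θ := by rw [hθ]; linarith
  have hs2 : 1/2 ≤ s := by rw [hs]; linarith
  have ha0 : 0 < a := mul_pos hβ hθ0
  have ha2 : a ≤ 1/4 := by rw [ha, hθ]; nlinarith
  have ht0 : 0 < t' := mul_pos hθ0 (by linarith)
  have hq1 : 1 ≤ q := by rw [hq, le_div_iff₀ (by linarith)]; linarith
  have hq2 : q ≤ 2 := by rw [hq, div_le_iff₀ (by linarith)]; linarith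
  have hsq : s * q - 1 = -(t' * q) := by
    have h1 : (1 - a) * q = 1 := by rw [hq, mul_one_div, div_self (by linarith)]
    have h2 : s = 1 - a - t' := by rw [ht', ha, hs, hθ]; ring
    rw [h2]; linear_combination h1
  set g0 := (1 + 1 / (2 * s)) / 2 with hg0
  have hg1 : g0 < 1 := by
    have : 1 / (2 * s) < 1 := by rw [div_lt_one (by linarith)]; rw [hs]; linarith
    rw [hg0]; linarith
  have hsg : 2 * s * g0 = 1 + η := by rw [hg0, hs]; field_simp; ring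
  set z0 : ℝ := (1/6 : ℝ) ^ (1 / (2 * η)) with hz0
  have hz00 : 0 < z0 := Real.rpow_pos_of_pos (by norm_num) _
  have hz01 : z0 ≤ 1 := Real.rpow_le_one (by norm_num) (by norm_num) (by positivity)
  -- large primes
  set δ : ℕ → ℝ := fun p => (p:ℝ) ^ (-t') with hδ
  have hlim : Tendsto δ atTop (nhds 0) :=
    (tendsto_rpow_neg_atTop ht0).comp tendsto_natCast_atTop_atTop
  have hev : ∀ᶠ p : ℕ in atTop, δ p ≤ 1/8 ∧ 2 * (1 - (1 - 4 * δ p) ^ (1/η)) ≤ z0 ∧
      36 * (p:ℝ) ^ (-((1 - g0) * t' * q)) ≤ 1/3 := by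
    refine (hlim.eventually (eventually_le_nhds (by norm_num))).and (?_ : ∀ᶠ _ in atTop, _ ∧ _)
    refine Filter.Eventually.and ?_ ?_
    · have h1 : Tendsto (fun p => 2 * (1 - (1 - 4 * δ p) ^ (1/η))) atTop
          (nhds (2 * (1 - (1 - 4 * (0:ℝ)) ^ (1/η)))) :=
        ((((hlim.const_mul 4).const_sub 1).rpow_const (Or.inr (by positivity))).const_sub 1).const_mul 2
      exact h1.eventually (eventually_le_nhds (by simpa using hz00))
    · have h1 : Tendsto (fun p : ℕ => 36 * (p:ℝ) ^ (-((1 - g0) * t' * q))) atTop (nhds (36 * 0)) :=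
        ((tendsto_rpow_neg_atTop (mul_pos (mul_pos (by linarith) ht0) (by linarith))).comp
          tendsto_natCast_atTop_atTop).const_mul 36
      exact h1.eventually (eventually_le_nhds (by norm_num))
  obtain ⟨p0, hp0⟩ := eventually_atTop.mp hev
  set δ2 := (2:ℝ) ^ (-t') with hδ2
  have hδ2' : δ2 < 1 := Real.rpow_lt_one_of_one_lt_of_neg (by norm_num) (by linarith)
  have hδ20 : 0 ≤ δ2 := Real.rpow_nonneg (by norm_num) _
  set C2 := 1 + 2 * δ2 / (1 - δ2) with hC2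
  have hC21 : 1 ≤ C2 := by
    have : 0 ≤ 2 * δ2 / (1 - δ2) := div_nonneg (by linarith) (by linarith)
    linarith
  refine ⟨fun p => (if p < p0 then C2 else 0) + 2 * (p:ℝ) ^ (-(1 + η)), ?_, fun p => ?_, ?_⟩
  · refine Summable.add ?_ ((Real.summable_nat_rpow.mpr (by linarith)).mul_left 2)
    exact summable_of_ne_finset_zero (s := range p0) fun p hp => if_neg fun h => hp (mem_range.mpr h)
  · have : (0:ℝ) ≤ (p:ℝ) ^ (-(1 + η)) := Real.rpow_nonneg (Nat.cast_nonneg p) _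
    dsimp only; split_ifs <;> linarith
  intro p hp I x y hx hy hX hY
  dsimp only
  change (∑ l ∈ (I ×ˢ I).image (fun e => (e.1:ℤ) - e.2),
      ((δ p) ^ l.natAbs * diag s I I x y l) ^ q) ^ (1 - a) ≤ _ ∨
    ∃ k ∈ I, 1 + ∑ i ∈ I.erase k, ∑ j ∈ I.erase k,
      (δ p) ^ ((i:ℤ) - j).natAbs * (x i * y j) ^ s ≤ _
  set A := (I ×ˢ I).image (fun e => (e.1:ℤ) - e.2) with hA
  set cp := (if p < p0 then C2 else 0) + 2 * (p:ℝ) ^ (-(1 + η)) with hcp
  have hpR : (2:ℝ) ≤ p := by exact_mod_cast hp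
  have hpow : (0:ℝ) ≤ (p:ℝ) ^ (-(1 + η)) := Real.rpow_nonneg (Nat.cast_nonneg p) _
  have hd0 : 0 ≤ δ p := Real.rpow_nonneg (Nat.cast_nonneg p) _
  have hd2 : δ p ≤ δ2 := Real.rpow_le_rpow_of_nonpos (by norm_num) hpR (by linarith)
  have hd1 : δ p < 1 := lt_of_le_of_lt hd2 hδ2'
  have hS0 : ∀ l, 0 ≤ diag s I I x y l := diag_nonneg hx hy
  have hS1 : ∀ l, diag s I I x y l ≤ 1 := fun l => by
    have := diag_le hs2 hx hy l
    rwa [hX, hY, one_mul, Real.one_rpow] at this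
  have hterm0 : ∀ l : ℤ, 0 ≤ (δ p) ^ l.natAbs * diag s I I x y l := fun l =>
    mul_nonneg (pow_nonneg hd0 _) (hS0 l)
  have hterm : ∀ l : ℤ, ((δ p) ^ l.natAbs * diag s I I x y l) ^ q ≤
      (δ p) ^ l.natAbs * diag s I I x y l := fun l =>
    Real.rpow_le_self_of_le_one (hterm0 l)
      (mul_le_one₀ (pow_le_one₀ hd0 hd1.le) (hS0 l) (hS1 l)) hq1
  have hF0 : 0 ≤ ∑ l ∈ A, ((δ p) ^ l.natAbs * diag s I I x y l) ^ q :=
    sum_nonneg fun l _ => Real.rpow_nonneg (hterm0 l) _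
  by_cases hsmall : p < p0
  · left
    have hF : ∑ l ∈ A, ((δ p) ^ l.natAbs * diag s I I x y l) ^ q ≤ C2 := by
      refine (sum_le_sum fun l _ => hterm l).trans ?_
      refine (sum_le_sum fun l _ => mul_le_of_le_one_right (pow_nonneg hd0 _) (hS1 l)).trans ?_
      refine ((geom_int hd0 hd1 A).1).trans ?_
      rw [hC2]
      gcongr <;> linarith
    calc (∑ l ∈ A, ((δ p) ^ l.natAbs * diag s I I x y l) ^ q) ^ (1 - a) ≤ C2 ^ (1 - a) :=
          Real.rpow_le_rpow hF0 hF (by linarith)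
      _ ≤ C2 := Real.rpow_le_self_of_one_le hC21 (by linarith)
      _ ≤ cp + 1 := by rw [hcp, if_pos hsmall]; linarith
      _ ≤ Real.exp cp := Real.add_one_le_exp _
  obtain ⟨hd8, hz, h36⟩ := hp0 p (by omega)
  have hcp0 : 0 ≤ cp := by rw [hcp, if_neg hsmall]; linarith
  have done : ∑ l ∈ A, ((δ p) ^ l.natAbs * diag s I I x y l) ^ q ≤ 1 →
      (∑ l ∈ A, ((δ p) ^ l.natAbs * diag s I I x y l) ^ q) ^ (1 - a) ≤ Real.exp cp := fun h =>
    (Real.rpow_le_one hF0 h (by linarith)).trans (Real.one_le_exp hcp0)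
  by_cases hcase : ∀ i ∈ I, (x i * y i) ^ η ≤ 1 - 4 * δ p
  · exact Or.inl (done (no_dominant hη hq1 hd0 hd8 hx hy hX hY hcase A))
  push Not at hcase
  obtain ⟨k, hk, hkbig⟩ := hcase
  have hxk1 : x k ≤ 1 := hX ▸ single_le_sum hx hk
  have hyk1 : y k ≤ 1 := hY ▸ single_le_sum hy hk
  obtain ⟨z, hzdef⟩ : ∃ z, (1 - x k) + (1 - y k) = z := ⟨_, rfl⟩
  have hz_nn : 0 ≤ z := by linarith
  have hzz : z ≤ z0 := by
    refine le_trans ?_ hz
    have h0 : 0 ≤ x k * y k := mul_nonneg (hx k hk) (hy k hk)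
    have h1 : (1 - 4 * δ p) ^ (1/η) ≤ x k * y k := by
      calc (1 - 4 * δ p) ^ (1/η) ≤ ((x k * y k) ^ η) ^ (1/η) :=
            Real.rpow_le_rpow (by linarith) hkbig.le (by positivity)
        _ = x k * y k := by rw [← Real.rpow_mul h0, mul_one_div, div_self hη.ne', Real.rpow_one]
    have h2 : x k * y k ≤ x k := mul_le_of_le_one_right (hx k hk) hyk1
    have h3 : x k * y k ≤ y k := mul_le_of_le_one_left (hy k hk) hxk1
    linarith
  by_cases hzp : z ≤ (p:ℝ) ^ (-g0)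
  · refine Or.inr ⟨k, hk, ?_⟩
    have hxE : ∀ i ∈ I.erase k, 0 ≤ x i := fun i hi => hx i (mem_of_mem_erase hi)
    have hyE : ∀ i ∈ I.erase k, 0 ≤ y i := fun i hi => hy i (mem_of_mem_erase hi)
    have h1 := weighted_le hs2 hd0 hd1 hxE hyE
    have h2 : 1 + 2 * δ p / (1 - δ p) ≤ 2 := by
      have : 2 * δ p / (1 - δ p) ≤ 1 := by rw [div_le_one (by linarith)]; linarith
      linarith
    have h3 : z ^ (2 * s) ≤ (p:ℝ) ^ (-(1 + η)) := by
      refine (Real.rpow_le_rpow hz_nn hzp (by linarith)).trans (le_of_eq ?_)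
      rw [← Real.rpow_mul (Nat.cast_nonneg p)]; congr 1; linarith
    have h4 := mul_le_mul h2 ((rest_sq_le hs2 hk hx hy hX hY hzdef).trans h3)
      (Real.rpow_nonneg (mul_nonneg (sum_nonneg hxE) (sum_nonneg hyE)) _) (by norm_num)
    have := Real.add_one_le_exp cp
    rw [hcp, if_neg hsmall] at this ⊢
    linarith
  · refine Or.inl (done ?_)
    have hp0' : (0:ℝ) < p := by linarith
    have hzpos : 0 < z := lt_of_le_of_lt (Real.rpow_nonneg (Nat.cast_nonneg p) _) (not_le.mp hzp)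
    have hz6 : z ^ (2 * η) ≤ 1/6 := by
      calc z ^ (2 * η) ≤ z0 ^ (2 * η) := Real.rpow_le_rpow hz_nn hzz (by linarith)
        _ = 1/6 := by
            rw [hz0, ← Real.rpow_mul (by norm_num), one_div_mul_cancel (by linarith), Real.rpow_one]
    refine dominant_small hη hq1 hq2 hd0 hd8 ?_ hk hx hy hX hY hzdef (not_le.mp hzp) hzpos hz6 A
    intro u hu hupos
    have hexp : (1/2 + η) * q = 1 + (-(t' * q)) := by rw [← hs]; linarith
    rw [hexp, Real.rpow_add hupos, Real.rpow_one, mul_left_comm]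
    have h1 : (δ p) ^ q * u ^ (-(t' * q)) ≤ (p:ℝ) ^ (-((1 - g0) * t' * q)) := by
      calc (δ p) ^ q * u ^ (-(t' * q)) ≤ (δ p) ^ q * ((p:ℝ) ^ (-g0)) ^ (-(t' * q)) :=
            mul_le_mul_of_nonneg_left (Real.rpow_le_rpow_of_nonpos (Real.rpow_pos_of_pos hp0' _)
              hu.le (neg_nonpos.mpr (mul_nonneg ht0.le (zero_le_one.trans hq1))))
              (Real.rpow_nonneg hd0 _)
        _ = _ := by
            simp only [hδ]
            rw [← Real.rpow_mul hp0'.le, ← Real.rpow_mul hp0'.le, ← Real.rpow_add hp0']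
            congr 1; ring
    calc u * ((δ p) ^ q * u ^ (-(t' * q))) ≤ u * (1/108) :=
          mul_le_mul_of_nonneg_left (h1.trans (by linarith)) hupos.le
      _ = u / 108 := by ring

end Vale.P028NF
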